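import Vale.Agent.P057.H203.Core

/-!
# P057 : the asymptotic density coming from a family of weighted blocks
-/

set_option linter.all false

open Finset Vale.Agent.P057.Lower

namespace Vale.Agent.P057.H203

/-- blocks of dimension `D` and of measure `exp (-ρ)` for all large primes of comparable size -/
def BlkFam (D : ℕ) (ρ : ℝ) : Prop :=
  ∀ η : ℝ, 0 < η → ∃ (R c : ℝ) (m0 : ℕ), 0 < c ∧ 0 ≤ R ∧ ∀ m : ℕ, m0 ≤ m → ∀ q : Fin D → ℕ,
    (∀ j, (q j).Prime ∧ m < q j ∧ q j ≤ 8 * m) → Function.Injective q →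
    ∃ (S : Finset (Fin D → ℤ)) (f : (Fin D → ℤ) → ℝ), Blk q S f R (c / (m : ℝ) ^ 2) ∧
      Real.exp (-(ρ + η)) ≤ (S.card : ℝ) / ∏ j, (q j : ℝ)

/-- there is a set free of three term progressions in `[0, W)` of density at least `x` -/
def T1 (W : ℕ) (x : ℝ) : Prop :=
  ∃ A : Finset ℤ, A ⊆ Finset.Ico 0 (W : ℤ) ∧ Free3 A ∧ (W : ℝ) * x ≤ A.card

def T2 (N : ℕ) (x : ℝ) : Prop := (N : ℝ) * (1 + Real.log N) * x ≤ 1

theorem T1.mono {W : ℕ} {x y : ℝ} (h : T1 W x) (hxy : y ≤ x) : T1 W y := by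
  obtain ⟨A, h1, h2, h3⟩ := h
  exact ⟨A, h1, h2, le_trans (mul_le_mul_of_nonneg_left hxy (by positivity)) h3⟩

theorem arith1 (C ρ η D d m L e x N : ℝ) (hC : 0 < C) (hρ : 0 < ρ) (hη : 0 < η) (hD : 1 ≤ D)
    (hd : 1 ≤ d) (hm : 1 ≤ m) (hL0 : 0 < L) (hL : L ≤ C * D ^ 4 * (d * m ^ 2))
    (he : e ≤ d / D + 1) (hN : N = 128 * d * m ^ 2 + 1) (hx : N * (1 + Real.log N) * x ≤ 1)
    (hbig : C * D ^ 4 * Real.exp (ρ + η * D) ≤ 1 + Real.log N) :
    Real.exp (-((ρ / D + η) * d)) * (x / 2) ≤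
      Real.exp (-((ρ + η * D) * e)) * (1 / (2 * L)) := by
  have hN1 : 1 ≤ N := by rw [hN]; nlinarith [mul_pos (by linarith : 0 < d) (by positivity : 0 < m ^ 2)]
  have hlog : 0 ≤ Real.log N := Real.log_nonneg hN1
  have hNl : 0 < N * (1 + Real.log N) := by positivity
  have hx' : x ≤ 1 / (N * (1 + Real.log N)) := by
    rw [le_div_iff₀ hNl]
    linarith
  have hD0 : 0 < D := by linarith
  have e1 : Real.exp (-((ρ / D + η) * d)) * Real.exp (-(ρ + η * D)) ≤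
      Real.exp (-((ρ + η * D) * e)) := by
    rw [← Real.exp_add]
    apply Real.exp_le_exp.2
    have h1 : (ρ + η * D) * e ≤ (ρ + η * D) * (d / D + 1) :=
      mul_le_mul_of_nonneg_left he (by positivity)
    have h2 : (ρ + η * D) * (d / D + 1) = (ρ / D + η) * d + (ρ + η * D) := by
      field_simp
    linarith
  have hdm : d * m ^ 2 ≤ N := by
    rw [hN]
    have : 0 < d * m ^ 2 := by positivity
    nlinarith
  have h3 : L * Real.exp (ρ + η * D) ≤ N * (1 + Real.log N) := by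
    have hE := Real.exp_pos (ρ + η * D)
    calc L * Real.exp (ρ + η * D) ≤ (C * D ^ 4 * (d * m ^ 2)) * Real.exp (ρ + η * D) :=
          mul_le_mul_of_nonneg_right hL hE.le
      _ = (d * m ^ 2) * (C * D ^ 4 * Real.exp (ρ + η * D)) := by ring
      _ ≤ N * (1 + Real.log N) := by
          apply mul_le_mul hdm hbig (by positivity) (by linarith)
  have h4 : 1 / (N * (1 + Real.log N)) ≤ Real.exp (-(ρ + η * D)) * (1 / L) := by
    rw [Real.exp_neg, ← one_div, one_div_mul_one_div]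
    apply one_div_le_one_div_of_le (by positivity)
    linarith
  calc Real.exp (-((ρ / D + η) * d)) * (x / 2)
      ≤ Real.exp (-((ρ / D + η) * d)) * ((1 / (N * (1 + Real.log N))) / 2) := by
        apply mul_le_mul_of_nonneg_left _ (Real.exp_pos _).le
        linarith
    _ ≤ Real.exp (-((ρ / D + η) * d)) * ((Real.exp (-(ρ + η * D)) * (1 / L)) / 2) := by
        apply mul_le_mul_of_nonneg_left _ (Real.exp_pos _).le
        linarith
    _ = (Real.exp (-((ρ / D + η) * d)) * Real.exp (-(ρ + η * D))) * (1 / (2 * L)) := by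
        field_simp
    _ ≤ _ := mul_le_mul_of_nonneg_right e1 (by positivity)

theorem arith2 (c R C D m e d K L M : ℝ) (hc : 0 < c) (hR : 0 ≤ R) (hC : C = (2 / c + 1) * R + 2)
    (hC0 : 0 < C) (hMR : 1 ≤ M) (heR : 1 ≤ e) (hed : e ≤ d) (hMm : M = D ^ 2 * m)
    (hK2 : K ≤ 2 * M ^ 2 / c + 1) (hL2 : L ≤ K * R * e + 2) :
    L ≤ C * D ^ 4 * (d * m ^ 2) := by
  have h1 : K ≤ (2 / c + 1) * M ^ 2 := by
    have h2 : (1 : ℝ) ≤ M ^ 2 := one_le_pow₀ hMR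
    calc K ≤ 2 * M ^ 2 / c + 1 := hK2
      _ ≤ 2 * M ^ 2 / c + M ^ 2 := by linarith
      _ = (2 / c + 1) * M ^ 2 := by ring
  have h3 : K * R * e ≤ (2 / c + 1) * M ^ 2 * R * e := by
    apply mul_le_mul_of_nonneg_right _ (by linarith)
    exact mul_le_mul_of_nonneg_right h1 hR
  have h4 : (2 : ℝ) ≤ 2 * (M ^ 2 * e) := by
    have h2 : (1 : ℝ) ≤ M ^ 2 := one_le_pow₀ hMR
    nlinarith
  have h5 : L ≤ C * (M ^ 2 * e) := by
    rw [hC]
    calc L ≤ K * R * e + 2 := hL2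
      _ ≤ (2 / c + 1) * M ^ 2 * R * e + 2 * (M ^ 2 * e) := by linarith
      _ = _ := by ring
  have h6 : M ^ 2 * e = D ^ 4 * (e * m ^ 2) := by rw [hMm]; ring
  rw [h6] at h5
  calc L ≤ C * (D ^ 4 * (e * m ^ 2)) := h5
    _ ≤ C * (D ^ 4 * (d * m ^ 2)) := by
        apply mul_le_mul_of_nonneg_left _ hC0.le
        apply mul_le_mul_of_nonneg_left _ (by positivity)
        exact mul_le_mul_of_nonneg_right hed (by positivity)
    _ = _ := by ring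

theorem arith3 (X d m m2 : ℝ) (hd : 1 ≤ d) (hm : 1 ≤ m) (h2 : m2 ≤ m) (hX : Real.exp X ≤ m2) :
    X ≤ 1 + Real.log (128 * d * m ^ 2 + 1) := by
  have h1 : Real.exp X ≤ 128 * d * m ^ 2 + 1 := by
    have h3 : m ≤ d * m ^ 2 := by
      have : m ≤ m ^ 2 := by nlinarith
      nlinarith
    have h4 : (0 : ℝ) ≤ d * m ^ 2 := by positivity
    linarith
  have h2 := Real.log_le_log (Real.exp_pos _) h1
  rw [Real.log_exp] at h2
  linarith

theorem arith4 (D d e : ℕ) (hD : 1 ≤ D) (he1 : D * e ≤ d + D - 1) :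
    (e : ℝ) ≤ d / D + 1 := by
  have h1 : ((D * e : ℕ) : ℝ) ≤ ((d + D : ℕ) : ℝ) := by
    have : D * e ≤ d + D := by omega
    exact_mod_cast this
  push_cast at h1
  have hD0 : (0 : ℝ) < D := by exact_mod_cast hD
  rw [← sub_le_iff_le_add, le_div_iff₀ hD0]
  nlinarith

theorem numb (D d m : ℕ) (hD : 1 ≤ D) (hd : 1 ≤ d) (hdm : d ^ 2 ≤ m) : ∃ e : ℕ,
    1 ≤ e ∧ e ≤ d ∧ D * e ≤ d + D - 1 ∧ d ≤ D * e ∧ (D * e) ^ 2 ≤ D ^ 2 * m := by
  obtain ⟨e, he⟩ : ∃ e : ℕ, e = (d + D - 1) / D := ⟨_, rfl⟩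
  have he1 : D * e ≤ d + D - 1 := by rw [he]; exact Nat.mul_div_le _ _
  have he2 : d ≤ D * e := by
    have h1 := Nat.lt_mul_div_succ (d + D - 1) (b := D) (by omega)
    rw [← he] at h1
    have h2 : D * (e + 1) = D * e + D := by ring
    omega
  have he3 : D * e ≤ D * d := by
    have h1 : d + D ≤ D * d + 1 := by nlinarith
    omega
  have hed : e ≤ d := Nat.le_of_mul_le_mul_left he3 (by omega)
  have he0 : 1 ≤ e := by
    by_contra hcon
    have : e = 0 := by omega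
    rw [this] at he2
    omega
  have hsq : (D * e) ^ 2 ≤ D ^ 2 * m := by
    calc (D * e) ^ 2 ≤ (D * d) ^ 2 := Nat.pow_le_pow_left he3 2
      _ = D ^ 2 * d ^ 2 := by ring
      _ ≤ D ^ 2 * m := Nat.mul_le_mul_left _ hdm
  exact ⟨e, he0, hed, he1, he2, hsq⟩

theorem primeq (D e M W m d : ℕ) (hM6 : 10 ^ 6 ≤ M) (hsq : (D * e) ^ 2 ≤ M) (hmM : m ≤ M)
    (he2 : d ≤ D * e) (hW : 2 * W ≤ m ^ d) : ∃ q : Fin e × Fin D → ℕ,
    Function.Injective q ∧ (∀ i, (q i).Prime ∧ M < q i ∧ q i ≤ 8 * M) ∧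
    Pairwise (Function.onFun Nat.Coprime q) ∧ (∀ i, q i % 2 = 1) ∧ 2 * W ≤ ∏ i, q i := by
  obtain ⟨P, hPc, hP⟩ := primes_exist M (D * e) hM6 hsq
  have hcardeq : Fintype.card (Fin e × Fin D) = Fintype.card P := by
    rw [Fintype.card_prod, Fintype.card_fin, Fintype.card_fin, Fintype.card_coe, hPc, mul_comm]
  obtain ⟨φ⟩ : Nonempty (Fin e × Fin D ≃ P) := ⟨Fintype.equivOfCardEq hcardeq⟩
  obtain ⟨q, hq⟩ : ∃ q : Fin e × Fin D → ℕ, ∀ i, q i = (φ i : ℕ) := ⟨fun i => (φ i : ℕ), fun _ => rfl⟩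
  have hqinj : Function.Injective q := by
    intro i j hij
    rw [hq, hq] at hij
    exact φ.injective (Subtype.ext hij)
  have hqP : ∀ i, (q i).Prime ∧ M < q i ∧ q i ≤ 8 * M := fun i => by
    rw [hq]; exact hP _ (φ i).2
  have hcop : Pairwise (Function.onFun Nat.Coprime q) := by
    intro i j hij
    exact (Nat.coprime_primes (hqP i).1 (hqP j).1).2 (fun h => hij (hqinj h))
  have hodd : ∀ i, q i % 2 = 1 := by
    intro i
    have h1 := hqP i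
    exact h1.1.eq_two_or_odd.resolve_left (by omega)
  refine ⟨q, hqinj, hqP, hcop, hodd, ?_⟩
  have h1 : m ^ d ≤ M ^ (D * e) := by
    calc m ^ d ≤ M ^ d := Nat.pow_le_pow_left hmM d
      _ ≤ M ^ (D * e) := Nat.pow_le_pow_right (by omega) he2
  have h2 : M ^ (D * e) ≤ ∏ i, q i := by
    have h3 : ∏ _i : Fin e × Fin D, M ≤ ∏ i, q i :=
      Finset.prod_le_prod' (fun i _ => (hqP i).2.1.le)
    rw [Finset.prod_const, Finset.card_univ, Fintype.card_prod, Fintype.card_fin,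
      Fintype.card_fin, mul_comm e D] at h3
    exact h3
  exact hW.trans (h1.trans h2)

theorem KL (M : ℕ) (hM : 1 ≤ M) (c R e : ℝ) (hc : 0 < c) (hR : 0 ≤ R) (he : 0 ≤ e) :
    ∃ K L : ℕ, (2 : ℝ) ≤ K * (c / (M : ℝ) ^ 2) ∧ (K : ℝ) ≤ 2 * (M : ℝ) ^ 2 / c + 1 ∧
      (K : ℝ) * R * e + 1 ≤ L ∧ (L : ℝ) ≤ (K : ℝ) * R * e + 2 := by
  have hMR : (1 : ℝ) ≤ M := by exact_mod_cast hM
  have hg : 0 < c / (M : ℝ) ^ 2 := by positivity
  obtain ⟨K, hKdef⟩ : ∃ K : ℕ, K = ⌈2 * (M : ℝ) ^ 2 / c⌉₊ := ⟨_, rfl⟩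
  have hK1 : 2 * (M : ℝ) ^ 2 / c ≤ K := by rw [hKdef]; exact Nat.le_ceil _
  have hK2 : (K : ℝ) ≤ 2 * (M : ℝ) ^ 2 / c + 1 := by
    rw [hKdef]; exact (Nat.ceil_lt_add_one (by positivity)).le
  have hK : (2 : ℝ) ≤ K * (c / (M : ℝ) ^ 2) := by
    have h1 : (2 : ℝ) = 2 * (M : ℝ) ^ 2 / c * (c / (M : ℝ) ^ 2) := by field_simp
    calc (2 : ℝ) = 2 * (M : ℝ) ^ 2 / c * (c / (M : ℝ) ^ 2) := h1
      _ ≤ _ := mul_le_mul_of_nonneg_right hK1 hg.le
  obtain ⟨L, hLdef⟩ : ∃ L : ℕ, L = ⌈(K : ℝ) * R * e + 1⌉₊ := ⟨_, rfl⟩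
  have hL1 : (K : ℝ) * R * e + 1 ≤ L := by rw [hLdef]; exact Nat.le_ceil _
  have hL2 : (L : ℝ) ≤ (K : ℝ) * R * e + 2 := by
    rw [hLdef]
    have := (Nat.ceil_lt_add_one (by positivity : 0 ≤ (K : ℝ) * R * e + 1)).le
    linarith
  exact ⟨K, L, hK, hK2, hL1, hL2⟩

theorem hdens_aux {e D : ℕ} (q : Fin e × Fin D → ℕ) (S : Fin e → Finset (Fin D → ℤ)) (r : ℝ)
    (hcard : ∀ i, Real.exp (-r) ≤ ((S i).card : ℝ) / ∏ j, (q (i, j) : ℝ)) :
    Real.exp (-(r * e)) ≤ ∏ i, ((S i).card : ℝ) / ∏ j, (q (i, j) : ℝ) := by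
  have h1 : Real.exp (-(r * e)) = ∏ _i : Fin e, Real.exp (-r) := by
    rw [Finset.prod_const, Finset.card_univ, Fintype.card_fin, ← Real.exp_nat_mul]
    congr 1
    ring
  rw [h1]
  exact Finset.prod_le_prod (fun i _ => (Real.exp_pos _).le) (fun i _ => hcard i)

theorem one_level3 (D : ℕ) (hD : 1 ≤ D) (ρ : ℝ) (hρ : 0 < ρ) (hfam : BlkFam D ρ) (η : ℝ)
    (hη : 0 < η) : ∃ m0 : ℕ, ∀ m : ℕ, m0 ≤ m → ∀ d : ℕ, 1 ≤ d → d ^ 2 ≤ m →
      ∀ W : ℕ, 2 ^ 1 * W ≤ m ^ d → ∀ x : ℝ, T2 (128 * d * m ^ 2 + 1) x →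
        T1 W (Real.exp (-((ρ / D + η) * d)) * (x / 2)) := by
  classical
  have hDR : (1 : ℝ) ≤ D := by exact_mod_cast hD
  obtain ⟨R, c, m1, hc, hR, hblk⟩ := hfam (η * D) (by positivity)
  obtain ⟨C, hC⟩ : ∃ C : ℝ, C = (2 / c + 1) * R + 2 := ⟨_, rfl⟩
  have hC0 : 0 < C := by rw [hC]; positivity
  obtain ⟨m2, hm2⟩ := exists_nat_ge (Real.exp (C * D ^ 4 * Real.exp (ρ + η * D)))
  refine ⟨max (max m1 m2) (10 ^ 6), fun m hm d hd hdm W hW x hx => ?_⟩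
  have hmm1 : m1 ≤ m := le_trans (le_trans (le_max_left _ _) (le_max_left _ _)) hm
  have hmm2 : m2 ≤ m := le_trans (le_trans (le_max_right _ _) (le_max_left _ _)) hm
  have hm6 : 10 ^ 6 ≤ m := le_trans (le_max_right _ _) hm
  obtain ⟨e, he0, hed, he1, he2, hsq⟩ := numb D d m hD hd hdm
  obtain ⟨M, hMdef⟩ : ∃ M : ℕ, M = D ^ 2 * m := ⟨_, rfl⟩
  have hmM : m ≤ M := by
    rw [hMdef]
    exact Nat.le_mul_of_pos_left _ (by positivity)
  rw [← hMdef] at hsq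
  have hW2 : 2 * W ≤ m ^ d := by
    have h3 : 2 ^ 1 * W = 2 * W := by ring
    rw [h3] at hW
    exact hW
  obtain ⟨q, hqinj, hqP, hcop, hodd, hprod⟩ := primeq D e M W m d (hm6.trans hmM) hsq hmM he2 hW2
  -- the blocks
  have hex : ∀ i : Fin e, ∃ (S : Finset (Fin D → ℤ)) (f : (Fin D → ℤ) → ℝ),
      Blk (fun j => q (i, j)) S f R (c / (M : ℝ) ^ 2) ∧
      Real.exp (-(ρ + η * D)) ≤ (S.card : ℝ) / ∏ j, (q (i, j) : ℝ) := by
    intro i
    exact hblk M (hmm1.trans hmM) (fun j => q (i, j)) (fun j => hqP (i, j))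
      (fun j j' h => (Prod.ext_iff.1 (hqinj h)).2)
  choose S f hb hcard using hex
  have hM1 : 1 ≤ M := by
    have : 1 ≤ 10 ^ 6 := by norm_num
    exact this.trans (hm6.trans hmM)
  have hMR : (1 : ℝ) ≤ M := by exact_mod_cast hM1
  have hg : 0 < c / (M : ℝ) ^ 2 := by positivity
  have heR : (1 : ℝ) ≤ e := by exact_mod_cast he0
  obtain ⟨K, L, hK, hK2, hL1, hL2⟩ := KL M hM1 c R e hc hR (by positivity)
  obtain ⟨A, hA, hAf, hAc⟩ := core q hcop hodd S f R (c / (M : ℝ) ^ 2) hg hR hb K L W hK hL1 hprod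
  refine ⟨A, hA, hAf, le_trans ?_ hAc⟩
  have hdens := hdens_aux q S (ρ + η * D) hcard
  have hL0 : (0 : ℝ) < L := by
    have : (0 : ℝ) ≤ (K : ℝ) * R * e := by positivity
    linarith
  have hedR : (e : ℝ) ≤ d := by exact_mod_cast hed
  have hdR : (1 : ℝ) ≤ d := by exact_mod_cast hd
  have hmR : (1 : ℝ) ≤ m := by
    have : 1 ≤ 10 ^ 6 := by norm_num
    exact_mod_cast this.trans hm6
  have hMm : (M : ℝ) = D ^ 2 * m := by rw [hMdef]; push_cast; ring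
  have hLC : (L : ℝ) ≤ C * D ^ 4 * (d * m ^ 2) :=
    arith2 c R C D m e d K L M hc hR hC hC0 hMR heR hedR hMm hK2 hL2
  have heD : (e : ℝ) ≤ d / D + 1 := arith4 D d e hD he1
  have hbig : C * D ^ 4 * Real.exp (ρ + η * D) ≤
      1 + Real.log (128 * (d : ℝ) * (m : ℝ) ^ 2 + 1) :=
    arith3 _ d m m2 hdR hmR (by exact_mod_cast hmm2) hm2
  have hxx : (128 * (d : ℝ) * (m : ℝ) ^ 2 + 1) * (1 + Real.log (128 * (d : ℝ) * (m : ℝ) ^ 2 + 1)) * x
      ≤ 1 := by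
    have h1 := hx
    unfold T2 at h1
    push_cast at h1
    exact h1
  have hfin := arith1 C ρ η D d m L e x _ hC0 hρ hη hDR hdR hmR hL0 hLC heD rfl hxx hbig
  rw [mul_assoc]
  apply mul_le_mul_of_nonneg_left _ (Nat.cast_nonneg _)
  exact hfin.trans (mul_le_mul_of_nonneg_right hdens (by positivity))

theorem t2_ev (ε : ℝ) (hε : 0 < ε) : ∃ N0 : ℕ, ∀ N : ℕ, N0 ≤ N →
    T2 N (Real.exp (-((1 + ε) * ((1 : ℕ) : ℝ) * ((1 : ℝ) * Real.log N) ^ ((1 : ℝ) / ((1 : ℕ) : ℝ))))) := by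
  have h1 := ev_exp_ge (1 / ε) 1 (by positivity) one_pos
  have h2 : Filter.Tendsto (fun W : ℕ => Real.log (W : ℝ)) Filter.atTop Filter.atTop :=
    Real.tendsto_log_atTop.comp tendsto_natCast_atTop_atTop
  obtain ⟨N0, hN0⟩ := Filter.eventually_atTop.1 (h2.eventually h1)
  refine ⟨max N0 1, fun N hN => ?_⟩
  have hN1 : 1 ≤ N := le_trans (le_max_right _ _) hN
  have h3 := hN0 N (le_trans (le_max_left _ _) hN)
  have hNR : (0 : ℝ) < N := by exact_mod_cast hN1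
  have hlog : 0 ≤ Real.log N := Real.log_natCast_nonneg N
  have h4 : 1 + Real.log N ≤ Real.exp (ε * Real.log N) := by
    have e1 : Real.log N / (1 / ε) = ε * Real.log N := by field_simp
    rw [e1] at h3
    refine le_trans ?_ h3
    nlinarith
  unfold T2
  simp only [Nat.cast_one, mul_one, one_mul, div_one, Real.rpow_one]
  have h5 : Real.exp (-((1 + ε) * Real.log N)) = (1 / N) * (1 / Real.exp (ε * Real.log N)) := by
    have : -((1 + ε) * Real.log N) = -Real.log N + -(ε * Real.log N) := by ring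
    rw [this, Real.exp_add, Real.exp_neg, Real.exp_neg, Real.exp_log hNR]
    simp only [one_div]
  rw [h5]
  have hE := Real.exp_pos (ε * Real.log N)
  have h6 : (N : ℝ) * (1 + Real.log N) * (1 / N * (1 / Real.exp (ε * Real.log N))) =
      (1 + Real.log N) / Real.exp (ε * Real.log N) := by
    field_simp
  rw [h6, div_le_one hE]
  exact h4

/-- the density theorem for a family of blocks -/
theorem dens_of_fam (D : ℕ) (hD : 1 ≤ D) (ρ : ℝ) (hρ : 0 < ρ) (hfam : BlkFam D ρ) (ε : ℝ)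
    (hε : 0 < ε) : ∃ N0 : ℕ, ∀ N : ℕ, N0 ≤ N →
      T1 N (Real.exp (-((1 + ε) * 2 * Real.sqrt (2 * (ρ / D) * Real.log N)))) := by
  have hD0 : (0 : ℝ) < D := by exact_mod_cast hD
  obtain ⟨N0, h⟩ := step_asym 1 le_rfl (ρ / D) 1 (by positivity) one_pos 1 T1 T2
    (fun W x y h hxy => h.mono hxy) (one_level3 D hD ρ hρ hfam) (fun ε hε => t2_ev ε hε) ε hε
  refine ⟨N0, fun N hN => ?_⟩
  have h1 := h N hN
  have e1 : Real.sqrt (2 * (ρ / D) * Real.log N) =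
      (2 * (ρ / D) * 1 * Real.log N) ^ ((1 : ℝ) / ((1 + 1 : ℕ) : ℝ)) := by
    rw [Real.sqrt_eq_rpow, mul_one]
    norm_num
  rw [e1]
  have e2 : (((1 + 1 : ℕ) : ℝ)) = 2 := by norm_num
  rw [e2] at h1 ⊢
  exact h1

/-- the same for subsets of `{1, …, N}` -/
theorem nat_form (N : ℕ) (x : ℝ) (h : T1 N x) : ∃ A : Finset ℕ, A ⊆ Finset.Icc 1 N ∧
    (∀ a d : ℕ, 0 < d → ¬ (a ∈ A ∧ a + d ∈ A ∧ a + 2 * d ∈ A)) ∧ (N : ℝ) * x ≤ A.card := by
  obtain ⟨A, hA, hAf, hAc⟩ := h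
  have key : ∀ b : ℕ, b ∈ A.image (fun a => a.toNat + 1) → (b : ℤ) - 1 ∈ A := by
    intro b hb
    obtain ⟨a, ha, hab⟩ := Finset.mem_image.1 hb
    have := Finset.mem_Ico.1 (hA ha)
    have e1 : (b : ℤ) - 1 = a := by
      rw [← hab]
      push_cast
      rw [Int.toNat_of_nonneg this.1]
      ring
    rw [e1]
    exact ha
  refine ⟨A.image (fun a => a.toNat + 1), ?_, ?_, ?_⟩
  · intro x hx
    obtain ⟨a, ha, rfl⟩ := Finset.mem_image.1 hx
    have := Finset.mem_Ico.1 (hA ha)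
    rw [Finset.mem_Icc]
    omega
  · rintro a d hd ⟨h0, h1, h2⟩
    apply hAf ((a : ℤ) - 1) d (by exact_mod_cast hd)
    refine ⟨key a h0, ?_, ?_⟩
    · have := key _ h1
      push_cast at this
      have e : (a : ℤ) - 1 + d = a + d - 1 := by ring
      rw [e]; exact this
    · have := key _ h2
      push_cast at this
      have e : (a : ℤ) - 1 + 2 * d = a + 2 * d - 1 := by ring
      rw [e]; exact this
  · rw [Finset.card_image_of_injOn]
    · exact hAc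
    · intro x hx y hy hxy
      have h1 := Finset.mem_Ico.1 (hA (Finset.mem_coe.1 hx))
      have h2 := Finset.mem_Ico.1 (hA (Finset.mem_coe.1 hy))
      have h3 : x.toNat + 1 = y.toNat + 1 := hxy
      omega

end Vale.Agent.P057.H203
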