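import Vale.Agent.P057.H203.Count
import Vale.Agent.P057.H203.Asym

/-!
# P057 : the two dimensional block of measure `29/96`
-/

set_option linter.all false

open Finset

namespace Vale.Agent.P057.H203

open Classical in
/-- the pairs of the block -/
noncomputable def pts (η : ℝ) (p p' : ℕ) : Finset (ℕ × ℤ) :=
  (Finset.range p ×ˢ Finset.Ioo (-(p' : ℤ)) p').filter
    (fun z => Reg η ((z.1 : ℝ) / p) ((z.2 : ℝ) / p'))

theorem pts_card (η : ℝ) (hη : 0 < η) (hη1 : η ≤ 1 / 100) (p p' : ℕ) (hp : 100 ≤ p)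
    (hp' : 100 ≤ p') :
    p' * (p * (29 / 96 - η) - 36) - 2 * p ≤ ((pts η p p').card : ℝ) := by
  classical
  have hp1 : 0 < p := by omega
  have hp'1 : 0 < p' := by omega
  have hp0 : (0 : ℝ) < p := by exact_mod_cast hp1
  have hp'0 : (0 : ℝ) < p' := by exact_mod_cast hp'1
  have e1 : (pts η p p').card = ∑ x ∈ Finset.range p, ((Finset.Ioo (-(p' : ℤ)) p').filter
      (fun y : ℤ => Reg η ((x : ℝ) / p) ((y : ℝ) / p'))).card := by
    unfold pts
    rw [Finset.card_filter, Finset.sum_product]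
    apply Finset.sum_congr rfl
    intro x hx
    rw [Finset.card_filter]
  rw [e1]
  push_cast
  have h1 : ∑ x ∈ Finset.range p, (p' * hh η ((x : ℝ) / p) - 2) ≤
      ∑ x ∈ Finset.range p, (((Finset.Ioo (-(p' : ℤ)) p').filter
      (fun y : ℤ => Reg η ((x : ℝ) / p) ((y : ℝ) / p'))).card : ℝ) := by
    apply Finset.sum_le_sum
    intro x hx
    have hx := Finset.mem_range.1 hx
    have hX0 : (0 : ℝ) ≤ (x : ℝ) / p := by positivity
    have hX1 : (x : ℝ) / p < 1 := by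
      rw [div_lt_one hp0]; exact_mod_cast hx
    obtain ⟨a, b, c, d, ha, hd, hc, hb, hlen, g1, g2⟩ := reg_interval hη hη1 hX0 hX1
    have h2 := two_int p' hp'1 (fun y : ℤ => Reg η ((x : ℝ) / p) ((y : ℝ) / p')) a b c d ha hd hc hb
      (fun y => g1 _) (fun y => g2 _)
    have h3 : p' * hh η ((x : ℝ) / p) ≤ p' * ((b - a) + (d - c)) :=
      mul_le_mul_of_nonneg_left hlen hp'0.le
    linarith
  refine le_trans ?_ h1
  rw [Finset.sum_sub_distrib, ← Finset.mul_sum, Finset.sum_const, Finset.card_range,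
    nsmul_eq_mul]
  have h4 := mul_le_mul_of_nonneg_left (hh_sum η hη hη1 p hp) hp'0.le
  linarith

/-- the vector of a pair -/
def vec (z : ℕ × ℤ) : Fin 2 → ℤ := ![(z.1 : ℤ), z.2]

theorem vec_inj : Function.Injective vec := by
  intro z z' h
  have h0 := congrFun h 0
  have h1 := congrFun h 1
  simp only [vec, Matrix.cons_val_zero, Matrix.cons_val_one] at h0 h1
  exact Prod.ext (by exact_mod_cast h0) h1

/-- the block -/
noncomputable def blkS (η : ℝ) (q : Fin 2 → ℕ) : Finset (Fin 2 → ℤ) :=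
  (pts η (q 0) (q 1)).image vec

/-- the weight of the block -/
noncomputable def blkf (η : ℝ) (q : Fin 2 → ℕ) (u : Fin 2 → ℤ) : ℝ :=
  wt η ((u 0 : ℝ) / q 0) ((u 1 : ℝ) / q 1)

theorem mem_blkS {η : ℝ} {q : Fin 2 → ℕ} {u : Fin 2 → ℤ} (h : u ∈ blkS η q) :
    0 ≤ u 0 ∧ u 0 < q 0 ∧ Reg η ((u 0 : ℝ) / q 0) ((u 1 : ℝ) / q 1) := by
  classical
  obtain ⟨z, hz, rfl⟩ := Finset.mem_image.1 h
  unfold pts at hz
  rw [Finset.mem_filter, Finset.mem_product, Finset.mem_range] at hz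
  obtain ⟨⟨h1, _⟩, h2⟩ := hz
  have e0 : vec z 0 = (z.1 : ℤ) := rfl
  have e1 : vec z 1 = z.2 := rfl
  rw [e0, e1]
  refine ⟨by positivity, by exact_mod_cast h1, ?_⟩
  rw [Int.cast_natCast]
  exact h2

theorem sep (a b : ℤ) (q : ℕ) (m : ℝ) (hq : 0 < q) (hm : 0 < m) (hqm : (q : ℝ) ≤ 8 * m)
    (hab : a ≠ b) : 1 / (64 * m ^ 2) ≤ ((a : ℝ) / q - (b : ℝ) / q) ^ 2 := by
  have hq0 : (0 : ℝ) < q := by exact_mod_cast hq
  rw [← sub_div, div_pow]
  have h1 : (1 : ℝ) ≤ ((a : ℝ) - b) ^ 2 := by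
    have h2 : 1 ≤ (a - b) ^ 2 := by
      have : a - b ≠ 0 := sub_ne_zero.2 hab
      have := sq_pos_of_ne_zero this
      omega
    exact_mod_cast h2
  have h3 : (q : ℝ) ^ 2 ≤ 64 * m ^ 2 := by nlinarith
  exact div_le_div₀ (by positivity) h1 (by positivity) h3

theorem blk_ok (η : ℝ) (hη : 0 < η) (hη1 : η ≤ 1 / 100) (m : ℕ) (hm : 1 ≤ m) (q : Fin 2 → ℕ)
    (hq : ∀ j, m < q j ∧ q j ≤ 8 * m) :
    Blk q (blkS η q) (blkf η q) (8 / η ^ 2 + 1) ((1 / 128) / (m : ℝ) ^ 2) := by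
  have hm0 : (0 : ℝ) < m := by exact_mod_cast hm
  have q0 : ∀ j, (0 : ℝ) < q j := fun j => by
    have : 0 < q j := by have := (hq j).1; omega
    exact_mod_cast this
  have q8 : ∀ j, (q j : ℝ) ≤ 8 * m := fun j => by exact_mod_cast (hq j).2
  refine ⟨?_, ?_, ?_, ?_⟩
  · intro u hu v hv h
    obtain ⟨u1, u2, u3⟩ := mem_blkS hu
    obtain ⟨v1, v2, v3⟩ := mem_blkS hv
    have h0 : u 0 - v 0 = 0 := by
      apply Int.eq_zero_of_abs_lt_dvd (h 0)
      rw [abs_lt]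
      constructor <;> omega
    have h1 : u 1 - v 1 = 0 := by
      apply Int.eq_zero_of_abs_lt_dvd (h 1)
      obtain ⟨_, _, w1, w2, _⟩ := u3
      obtain ⟨_, _, w3, w4, _⟩ := v3
      rw [lt_div_iff₀ (q0 1)] at w1 w3
      rw [div_lt_iff₀ (q0 1)] at w2 w4
      have : |((u 1 : ℝ)) - v 1| < q 1 := by
        rw [abs_lt]
        constructor <;> linarith
      exact_mod_cast this
    funext j
    fin_cases j
    · exact sub_eq_zero.1 h0
    · exact sub_eq_zero.1 h1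
  · intro u hu
    unfold blkf wt
    have := f2_nonneg ((u 0 : ℝ) / q 0) ((u 1 : ℝ) / q 1)
    positivity
  · intro u hu
    obtain ⟨u1, u2, u3⟩ := mem_blkS hu
    have h1 := f2_le (X := (u 0 : ℝ) / q 0) u3.2.2.1 u3.2.2.2.1
    unfold blkf wt
    have h2 : ((u 0 : ℝ) / q 0) ^ 2 ≤ 1 := by
      have h3 := u3.1
      have h4 := u3.2.1
      nlinarith
    have h3 : 8 / η ^ 2 * ((u 0 : ℝ) / q 0) ^ 2 ≤ 8 / η ^ 2 * 1 :=
      mul_le_mul_of_nonneg_left h2 (by positivity)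
    linarith
  · intro x hx y hy z hz h
    obtain ⟨x1, x2, x3⟩ := mem_blkS hx
    obtain ⟨y1, y2, y3⟩ := mem_blkS hy
    obtain ⟨z1, z2, z3⟩ := mem_blkS hz
    obtain ⟨k, hk⟩ := h 0
    obtain ⟨l, hl⟩ := h 1
    have hkR : (x 0 : ℝ) / q 0 - 2 * ((y 0 : ℝ) / q 0) + (z 0 : ℝ) / q 0 = k := by
      have h1 : (x 0 : ℝ) - 2 * y 0 + z 0 = q 0 * k := by exact_mod_cast hk
      have h2 := (q0 0).ne'
      field_simp
      linarith
    have hlR : (x 1 : ℝ) / q 1 - 2 * ((y 1 : ℝ) / q 1) + (z 1 : ℝ) / q 1 = l := by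
      have h1 : (x 1 : ℝ) - 2 * y 1 + z 1 = q 1 * l := by exact_mod_cast hl
      have h2 := (q0 1).ne'
      field_simp
      linarith
    by_cases hxz : x = z
    · exact Or.inl hxz
    right
    have hg : (1 / 128) / (m : ℝ) ^ 2 = 1 / 2 * (1 / (64 * (m : ℝ) ^ 2)) := by
      field_simp
      norm_num
    rcases reg_cv hη hη1 x3 y3 z3 hkR hlR with h1 | h1
    · refine le_trans ?_ h1
      rw [hg]
      have hm1 : (1 : ℝ) ≤ m := by exact_mod_cast hm
      have : 1 / (64 * (m : ℝ) ^ 2) ≤ 1 := by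
        rw [div_le_one (by positivity)]
        nlinarith
      linarith
    · refine le_trans ?_ h1
      rw [hg]
      have h2 : x 0 ≠ z 0 ∨ x 1 ≠ z 1 := by
        by_contra hcon
        push Not at hcon
        apply hxz
        funext j
        fin_cases j
        · exact hcon.1
        · exact hcon.2
      apply mul_le_mul_of_nonneg_left _ (by norm_num)
      rcases h2 with h2 | h2
      · have h3 := sep (x 0) (z 0) (q 0) m (by have := (hq 0).1; omega) hm0 (q8 0) h2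
        have h4 := sq_nonneg ((x 1 : ℝ) / q 1 - (z 1 : ℝ) / q 1)
        linarith
      · have h3 := sep (x 1) (z 1) (q 1) m (by have := (hq 1).1; omega) hm0 (q8 1) h2
        have h4 := sq_nonneg ((x 0 : ℝ) / q 0 - (z 0 : ℝ) / q 0)
        linarith

theorem final_arith (δ η p p' m S : ℝ) (hδ : 0 < δ) (hη : η ≤ δ / 2) (hp : m ≤ p) (hp' : m ≤ p')
    (hm : 0 < m) (hmδ : 38 / m ≤ δ / 2) (hS : p' * (p * (29 / 96 - η) - 36) - 2 * p ≤ S) :
    29 / 96 - δ ≤ S / (p * p') := by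
  have hp0 : 0 < p := by linarith
  have hp'0 : 0 < p' := by linarith
  rw [le_div_iff₀ (by positivity)]
  have h1 : 38 ≤ δ / 2 * m := by rwa [div_le_iff₀ hm] at hmδ
  have h2 : 36 * p' ≤ (36 / 38) * (δ / 2) * p * p' := by
    have : 36 ≤ (36 / 38) * (δ / 2) * p := by nlinarith
    nlinarith
  have h3 : 2 * p ≤ (2 / 38) * (δ / 2) * p * p' := by
    have : 2 ≤ (2 / 38) * (δ / 2) * p' := by nlinarith
    nlinarith
  have h4 : η * (p * p') ≤ δ / 2 * (p * p') := mul_le_mul_of_nonneg_right hη (by positivity)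
  nlinarith

/-- the family of blocks -/
theorem blkFam : BlkFam 2 (Real.log (96 / 29)) := by
  intro η' hη'
  have hE : Real.exp (-η') < 1 := by
    rw [Real.exp_lt_one_iff]
    linarith
  obtain ⟨δ, hδ⟩ : ∃ δ : ℝ, δ = 29 / 96 * (1 - Real.exp (-η')) := ⟨_, rfl⟩
  have hδ0 : 0 < δ := by rw [hδ]; nlinarith
  obtain ⟨η, hη⟩ : ∃ η : ℝ, η = min (1 / 100) (δ / 2) := ⟨_, rfl⟩
  have hη0 : 0 < η := by rw [hη]; exact lt_min (by norm_num) (by linarith)
  have hη1 : η ≤ 1 / 100 := by rw [hη]; exact min_le_left _ _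
  have hη2 : η ≤ δ / 2 := by rw [hη]; exact min_le_right _ _
  obtain ⟨m1, hm1⟩ := exists_nat_ge (38 / (δ / 2))
  refine ⟨8 / η ^ 2 + 1, 1 / 128, max m1 100, by norm_num, by positivity, fun m hm q hq _ => ?_⟩
  have hmm1 : m1 ≤ m := (le_max_left _ _).trans hm
  have hm100 : 100 ≤ m := (le_max_right _ _).trans hm
  have hm0 : (0 : ℝ) < m := by
    have : 0 < m := by omega
    exact_mod_cast this
  refine ⟨blkS η q, blkf η q, blk_ok η hη0 hη1 m (by omega) q (fun j => (hq j).2), ?_⟩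
  have hc : (blkS η q).card = (pts η (q 0) (q 1)).card :=
    Finset.card_image_of_injective _ vec_inj
  rw [hc, Fin.prod_univ_two]
  have h0 := (hq 0).2.1
  have h1 := (hq 1).2.1
  have hS := pts_card η hη0 hη1 (q 0) (q 1) (by omega) (by omega)
  have hmδ : 38 / (m : ℝ) ≤ δ / 2 := by
    have h2 : 38 / (δ / 2) ≤ m := hm1.trans (by exact_mod_cast hmm1)
    rw [div_le_iff₀ (by linarith)] at h2
    rw [div_le_iff₀ hm0]
    linarith
  have h3 := final_arith δ η (q 0) (q 1) m _ hδ0 hη2 (by exact_mod_cast h0.le)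
    (by exact_mod_cast h1.le) hm0 hmδ hS
  refine le_trans (le_of_eq ?_) h3
  rw [hδ, neg_add, Real.exp_add, Real.exp_neg, Real.exp_log (by norm_num)]
  ring

end Vale.Agent.P057.H203
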