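import Vale.Agent.P057.Bdl.B1

/-!
# P057 : sets without three term progressions from weighted blocks

A block is a finite set `S` of integer vectors (coordinates modulo distinct odd primes) with a real
weight `f` such that every progression modulo the primes inside `S` satisfies
`f x - 2 f y + f z ≥ g`, unless it is constant.
-/

set_option linter.all false

open Finset Vale.Agent.P057.Lower

namespace Vale.Agent.P057.H203

/-- a block with a weight for three term progressions -/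
structure Blk {D : ℕ} (q : Fin D → ℕ) (S : Finset (Fin D → ℤ)) (f : (Fin D → ℤ) → ℝ)
    (R g : ℝ) : Prop where
  inj : ∀ u ∈ S, ∀ v ∈ S, (∀ j, (q j : ℤ) ∣ u j - v j) → u = v
  nonneg : ∀ u ∈ S, 0 ≤ f u
  le : ∀ u ∈ S, f u ≤ R
  cv : ∀ x ∈ S, ∀ y ∈ S, ∀ z ∈ S, (∀ j, (q j : ℤ) ∣ x j - 2 * y j + z j) →
    x = z ∨ g ≤ f x - 2 * f y + f z

/-- no three term progression -/
def Free3 (A : Finset ℤ) : Prop :=
  ∀ a d : ℤ, 0 < d → ¬ (a ∈ A ∧ a + d ∈ A ∧ a + 2 * d ∈ A)

theorem core {e D : ℕ} (q : Fin e × Fin D → ℕ) (hq : Pairwise (Function.onFun Nat.Coprime q))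
    (hq2 : ∀ i, q i % 2 = 1) (S : Fin e → Finset (Fin D → ℤ)) (f : Fin e → (Fin D → ℤ) → ℝ)
    (R g : ℝ) (hg : 0 < g) (hR : 0 ≤ R) (hb : ∀ i, Blk (fun j => q (i, j)) (S i) (f i) R g)
    (K L W : ℕ) (hK : 2 ≤ K * g) (hL : K * R * e + 1 ≤ L) (hW : 2 * W ≤ ∏ i, q i) :
    ∃ A : Finset ℤ, A ⊆ Finset.Ico 0 (W : ℤ) ∧ Free3 A ∧
      (W : ℝ) * (∏ i, ((S i).card : ℝ) / ∏ j, (q (i, j) : ℝ)) * (1 / (2 * L)) ≤ A.card := by
  classical
  have hq0 : ∀ i, 0 < q i := fun i => by have := hq2 i; omega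
  obtain ⟨M, crt, hM, hM0, hcrt, hinj⟩ := crt_exists q hq hq0
  have hKRe : (0 : ℝ) ≤ K * R * e := by positivity
  have hL0 : 0 < L := by
    have : (0 : ℝ) < L := by linarith
    exact_mod_cast this
  set V : Finset ((Fin e × Fin D) → ℤ) :=
    (Fintype.piFinset S).image (fun w ij => w ij.1 ij.2) with hVdef
  have hmem : ∀ v ∈ V, ∀ i, (fun j => v (i, j)) ∈ S i := by
    intro v hv i
    rw [hVdef, Finset.mem_image] at hv
    obtain ⟨w, hw, rfl⟩ := hv
    exact Fintype.mem_piFinset.1 hw i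
  have hVcard : V.card = ∏ i, (S i).card := by
    rw [hVdef, Finset.card_image_of_injective, Fintype.card_piFinset]
    intro w w' h
    funext i j
    exact congrFun h (i, j)
  have hVinj : ∀ v ∈ V, ∀ v' ∈ V, crt v = crt v' → v = v' := by
    intro v hv v' hv' h
    funext ij
    obtain ⟨i, j⟩ := ij
    have := (hb i).inj _ (hmem v hv i) _ (hmem v' hv' i) (fun j => hinj v v' h (i, j))
    exact congrFun this j
  set F : ((Fin e × Fin D) → ℤ) → ℤ := fun v => ⌊(K : ℝ) * ∑ i, f i (fun j => v (i, j))⌋ with hFdef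
  have hF : ∀ v ∈ V, 0 ≤ F v ∧ F v < L := by
    intro v hv
    have h1 : 0 ≤ ∑ i, f i (fun j => v (i, j)) :=
      Finset.sum_nonneg (fun i _ => (hb i).nonneg _ (hmem v hv i))
    have h2 : ∑ i, f i (fun j => v (i, j)) ≤ e * R := by
      calc ∑ i, f i (fun j => v (i, j)) ≤ ∑ _i : Fin e, R :=
            Finset.sum_le_sum (fun i _ => (hb i).le _ (hmem v hv i))
        _ = e * R := by rw [Finset.sum_const, Finset.card_univ, Fintype.card_fin, nsmul_eq_mul]
    constructor
    · exact Int.floor_nonneg.2 (by positivity)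
    · rw [hFdef]
      simp only
      rw [Int.floor_lt]
      have hK0 : (0 : ℝ) ≤ K := Nat.cast_nonneg _
      have h3 : (K : ℝ) * ∑ i, f i (fun j => v (i, j)) ≤ K * (e * R) :=
        mul_le_mul_of_nonneg_left h2 hK0
      have h4 : ((L : ℤ) : ℝ) = (L : ℝ) := by push_cast; rfl
      rw [h4]
      nlinarith
  obtain ⟨s, t, A, hA, hprop, hcard⟩ := pigeon_count M hM0 crt V hVinj F L hL0 hF {0}
    (by
      intro x hx
      rw [Finset.mem_singleton] at hx
      rw [hx, Finset.mem_Ico]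
      omega) W
  refine ⟨A, hA, ?_, ?_⟩
  · rintro a d hd ⟨h0, h1, h2⟩
    obtain ⟨v0, hv0, hs0, ht0⟩ := hprop a h0
    obtain ⟨v1, hv1, hs1, ht1⟩ := hprop (a + d) h1
    obtain ⟨v2, hv2, hs2, ht2⟩ := hprop (a + 2 * d) h2
    have : NeZero M := ⟨hM0.ne'⟩
    have hscast : (((s.val : ℕ) : ℤ) : ZMod M) = s := by
      rw [Int.cast_natCast, ZMod.natCast_val, ZMod.cast_id', id_eq]
    have g0 : ∀ i, (q i : ℤ) ∣ (((s.val : ℕ) : ℤ) + a) - v0 i := by
      apply hcrt
      rw [Int.cast_add, hscast, ← hs0, sub_add_cancel]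
    have g1 : ∀ i, (q i : ℤ) ∣ (((s.val : ℕ) : ℤ) + (a + d)) - v1 i := by
      apply hcrt
      rw [Int.cast_add, hscast, ← hs1, sub_add_cancel]
    have g2 : ∀ i, (q i : ℤ) ∣ (((s.val : ℕ) : ℤ) + (a + 2 * d)) - v2 i := by
      apply hcrt
      rw [Int.cast_add, hscast, ← hs2, sub_add_cancel]
    have gd : ∀ i, (q i : ℤ) ∣ v0 i - 2 * v1 i + v2 i := by
      intro i
      have e1 : v0 i - 2 * v1 i + v2 i = -((((s.val : ℕ) : ℤ) + a) - v0 i)
          + 2 * ((((s.val : ℕ) : ℤ) + (a + d)) - v1 i)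
          - ((((s.val : ℕ) : ℤ) + (a + 2 * d)) - v2 i) := by ring
      rw [e1]
      exact dvd_sub (dvd_add (dvd_neg.2 (g0 i)) (dvd_mul_of_dvd_right (g1 i) _)) (g2 i)
    -- the weights
    have k0 : F v0 = -t := by have := Finset.mem_singleton.1 ht0; omega
    have k1 : F v1 = -t := by have := Finset.mem_singleton.1 ht1; omega
    have k2 : F v2 = -t := by have := Finset.mem_singleton.1 ht2; omega
    have l0 := Int.lt_floor_add_one ((K : ℝ) * ∑ i, f i (fun j => v0 (i, j)))
    have l1 := Int.floor_le ((K : ℝ) * ∑ i, f i (fun j => v1 (i, j)))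
    have l2 := Int.lt_floor_add_one ((K : ℝ) * ∑ i, f i (fun j => v2 (i, j)))
    have k0' : ⌊(K : ℝ) * ∑ i, f i (fun j => v0 (i, j))⌋ = -t := k0
    have k1' : ⌊(K : ℝ) * ∑ i, f i (fun j => v1 (i, j))⌋ = -t := k1
    have k2' : ⌊(K : ℝ) * ∑ i, f i (fun j => v2 (i, j))⌋ = -t := k2
    rw [k0'] at l0
    rw [k1'] at l1
    rw [k2'] at l2
    have hsum : ∑ i, (f i (fun j => v0 (i, j)) - 2 * f i (fun j => v1 (i, j)) +
        f i (fun j => v2 (i, j))) = ∑ i, f i (fun j => v0 (i, j)) -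
        2 * ∑ i, f i (fun j => v1 (i, j)) + ∑ i, f i (fun j => v2 (i, j)) := by
      rw [Finset.sum_add_distrib, Finset.sum_sub_distrib, ← Finset.mul_sum]
    have hlt : (K : ℝ) * ∑ i, (f i (fun j => v0 (i, j)) - 2 * f i (fun j => v1 (i, j)) +
        f i (fun j => v2 (i, j))) < 2 := by
      rw [hsum]
      have : (K : ℝ) * (∑ i, f i (fun j => v0 (i, j)) -
        2 * ∑ i, f i (fun j => v1 (i, j)) + ∑ i, f i (fun j => v2 (i, j))) =
        (K : ℝ) * ∑ i, f i (fun j => v0 (i, j)) - 2 * ((K : ℝ) * ∑ i, f i (fun j => v1 (i, j)))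
        + (K : ℝ) * ∑ i, f i (fun j => v2 (i, j)) := by ring
      rw [this]
      linarith
    -- each block
    have hcase : ∀ i, ((fun j => v0 (i, j)) = (fun j => v2 (i, j)) ∧
        f i (fun j => v0 (i, j)) - 2 * f i (fun j => v1 (i, j)) + f i (fun j => v2 (i, j)) = 0) ∨
        g ≤ f i (fun j => v0 (i, j)) - 2 * f i (fun j => v1 (i, j)) + f i (fun j => v2 (i, j)) := by
      intro i
      rcases (hb i).cv _ (hmem v0 hv0 i) _ (hmem v1 hv1 i) _ (hmem v2 hv2 i)
        (fun j => gd (i, j)) with h | h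
      · left
        refine ⟨h, ?_⟩
        have h01 : (fun j => v0 (i, j)) = (fun j => v1 (i, j)) := by
          apply (hb i).inj _ (hmem v0 hv0 i) _ (hmem v1 hv1 i)
          intro j
          have e2 : v2 (i, j) = v0 (i, j) := (congrFun h j).symm
          have h3 := gd (i, j)
          rw [e2] at h3
          have e3 : v0 (i, j) - 2 * v1 (i, j) + v0 (i, j) = 2 * (v0 (i, j) - v1 (i, j)) := by ring
          rw [e3] at h3
          have hcop : IsCoprime ((q (i, j) : ℕ) : ℤ) 2 := by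
            have h4 : Nat.Coprime (q (i, j)) 2 := by
              rw [Nat.coprime_comm, Nat.coprime_two_left, Nat.odd_iff]
              exact hq2 (i, j)
            exact_mod_cast Nat.isCoprime_iff_coprime.2 h4
          exact hcop.dvd_of_dvd_mul_left h3
        rw [← h, ← h01]
        ring
      · right
        exact h
    have hall : ∀ i, (fun j => v0 (i, j)) = (fun j => v2 (i, j)) := by
      by_contra hcon
      push Not at hcon
      obtain ⟨i0, hi0⟩ := hcon
      have h5 : g ≤ ∑ i, (f i (fun j => v0 (i, j)) - 2 * f i (fun j => v1 (i, j)) +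
          f i (fun j => v2 (i, j))) := by
        have h6 := (hcase i0).resolve_left (fun h => hi0 h.1)
        refine h6.trans ?_
        refine Finset.single_le_sum (f := fun i => (f i (fun j => v0 (i, j)) -
          2 * f i (fun j => v1 (i, j)) + f i (fun j => v2 (i, j)))) ?_ (Finset.mem_univ i0)
        intro i _
        rcases hcase i with h | h
        · exact h.2.ge
        · exact hg.le.trans h
      have h7 : (K : ℝ) * g ≤ (K : ℝ) * ∑ i, (f i (fun j => v0 (i, j)) -
          2 * f i (fun j => v1 (i, j)) + f i (fun j => v2 (i, j))) :=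
        mul_le_mul_of_nonneg_left h5 (Nat.cast_nonneg _)
      linarith
    have hdvd : ∀ i, (q i : ℤ) ∣ 2 * d := by
      rintro ⟨i, j⟩
      have e4 : v0 (i, j) = v2 (i, j) := congrFun (hall i) j
      have e5 : 2 * d = ((((s.val : ℕ) : ℤ) + (a + 2 * d)) - v2 (i, j)) -
          ((((s.val : ℕ) : ℤ) + a) - v0 (i, j)) := by rw [e4]; ring
      rw [e5]
      exact dvd_sub (g2 (i, j)) (g0 (i, j))
    have hcop : (∏ i, (q i : ℤ)) ∣ 2 * d :=
      Fintype.prod_dvd_of_coprime (fun i j hij => Nat.isCoprime_iff_coprime.2 (hq hij)) hdvd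
    have hW' : (2 * (W : ℤ)) ≤ ∏ i, (q i : ℤ) := by
      have : ((2 * W : ℕ) : ℤ) ≤ ((∏ i, q i : ℕ) : ℤ) := by exact_mod_cast hW
      push_cast at this
      exact this
    have m0 := Finset.mem_Ico.1 (hA h0)
    have m2 := Finset.mem_Ico.1 (hA h2)
    have := Int.le_of_dvd (by omega) hcop
    omega
  · refine le_trans (le_of_eq ?_) hcard
    have hMR : (M : ℝ) = ∏ i, ∏ j, (q (i, j) : ℝ) := by
      rw [hM]
      push_cast
      rw [Fintype.prod_prod_type]
    rw [Finset.prod_div_distrib, ← hMR, hVcard]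
    have hM' : (M : ℝ) ≠ 0 := by exact_mod_cast hM0.ne'
    have hL' : (L : ℝ) ≠ 0 := by exact_mod_cast hL0.ne'
    simp only [Finset.card_singleton]
    push_cast
    generalize (∏ i, ((S i).card : ℝ)) = P
    generalize (M : ℝ) = M' at hM' ⊢
    generalize (L : ℝ) = L' at hL' ⊢
    generalize (W : ℝ) = W'
    field_simp

end Vale.Agent.P057.H203
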