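import Vale.Agent.P057.H203.Region

/-!
# P057 : counting the lattice points of the region
-/

set_option linter.all false

open Finset

namespace Vale.Agent.P057.H203

theorem ioo_card (a b : ℝ) : b - a - 1 ≤ ((Finset.Ioo ⌊a⌋ ⌈b⌉).card : ℝ) := by
  rw [Int.card_Ioo]
  have h1 : ((⌈b⌉ - ⌊a⌋ - 1 : ℤ) : ℝ) ≤ (((⌈b⌉ - ⌊a⌋ - 1).toNat : ℤ) : ℝ) := by
    exact_mod_cast Int.self_le_toNat _
  push_cast at h1 ⊢
  have h2 := Int.le_ceil b
  have h3 := Int.floor_le a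
  linarith

theorem mem_ioo_fc {a b : ℝ} {y : ℤ} (h : y ∈ Finset.Ioo ⌊a⌋ ⌈b⌉) : a < y ∧ (y : ℝ) < b := by
  rw [Finset.mem_Ioo] at h
  exact ⟨Int.floor_lt.1 h.1, Int.lt_ceil.1 h.2⟩

/-- the number of integers in two disjoint intervals -/
theorem two_int (p : ℕ) (hp : 0 < p) (P : ℤ → Prop) [DecidablePred P] (a b c d : ℝ) (ha : 0 ≤ a)
    (hd : d ≤ 0) (hc : -1 ≤ c) (hb : b ≤ 1)
    (h1 : ∀ y : ℤ, a < (y : ℝ) / p → (y : ℝ) / p < b → P y)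
    (h2 : ∀ y : ℤ, c < (y : ℝ) / p → (y : ℝ) / p < d → P y) :
    p * ((b - a) + (d - c)) - 2 ≤ (((Finset.Ioo (-(p : ℤ)) p).filter P).card : ℝ) := by
  classical
  have hp0 : (0 : ℝ) < p := by exact_mod_cast hp
  have hsub : Finset.Ioo ⌊p * a⌋ ⌈p * b⌉ ∪ Finset.Ioo ⌊p * c⌋ ⌈p * d⌉ ⊆
      (Finset.Ioo (-(p : ℤ)) p).filter P := by
    intro y hy
    rw [Finset.mem_union] at hy
    rw [Finset.mem_filter, Finset.mem_Ioo]
    rcases hy with hy | hy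
    · obtain ⟨g1, g2⟩ := mem_ioo_fc hy
      have k1 : a < (y : ℝ) / p := by rw [lt_div_iff₀ hp0]; linarith
      have k2 : (y : ℝ) / p < b := by rw [div_lt_iff₀ hp0]; linarith
      refine ⟨⟨?_, ?_⟩, h1 y k1 k2⟩
      · have : (-(p : ℝ)) < y := by nlinarith
        exact_mod_cast this
      · have : (y : ℝ) < p := by nlinarith
        exact_mod_cast this
    · obtain ⟨g1, g2⟩ := mem_ioo_fc hy
      have k1 : c < (y : ℝ) / p := by rw [lt_div_iff₀ hp0]; linarith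
      have k2 : (y : ℝ) / p < d := by rw [div_lt_iff₀ hp0]; linarith
      refine ⟨⟨?_, ?_⟩, h2 y k1 k2⟩
      · have : (-(p : ℝ)) < y := by nlinarith
        exact_mod_cast this
      · have : (y : ℝ) < p := by nlinarith
        exact_mod_cast this
  have hdisj : Disjoint (Finset.Ioo ⌊p * a⌋ ⌈p * b⌉) (Finset.Ioo ⌊p * c⌋ ⌈p * d⌉) := by
    rw [Finset.disjoint_left]
    intro y hy hy'
    obtain ⟨g1, g2⟩ := mem_ioo_fc hy
    obtain ⟨g3, g4⟩ := mem_ioo_fc hy'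
    have k1 : 0 ≤ (p : ℝ) * a := by positivity
    have k2 : (p : ℝ) * d ≤ 0 := mul_nonpos_of_nonneg_of_nonpos hp0.le hd
    linarith
  have h3 := Finset.card_le_card hsub
  rw [Finset.card_union_of_disjoint hdisj] at h3
  have h4 : (((Finset.Ioo ⌊p * a⌋ ⌈p * b⌉).card : ℕ) : ℝ) +
      ((Finset.Ioo ⌊p * c⌋ ⌈p * d⌉).card : ℝ) ≤
      (((Finset.Ioo (-(p : ℤ)) p).filter P).card : ℝ) := by exact_mod_cast h3
  have h5 := ioo_card (p * a) (p * b)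
  have h6 := ioo_card (p * c) (p * d)
  linarith

theorem lin_sum (p : ℕ) (hp : 0 < p) (α β : ℝ) (a b : ℕ) (hab : a ≤ b) :
    ∑ x ∈ Finset.Ico a b, (α + β * ((x : ℝ) / p)) =
      p * ((α * (b / p) + β / 2 * (b / p) ^ 2) - (α * (a / p) + β / 2 * (a / p) ^ 2)) -
        β / 2 * ((b - a) / p) := by
  have hp0 : (p : ℝ) ≠ 0 := by exact_mod_cast hp.ne'
  induction b, hab using Nat.le_induction with
  | base => simp
  | succ b hb ih =>
    rw [Finset.sum_Ico_succ_top hb, ih]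
    push_cast
    field_simp
    ring

theorem quad_near (p t B α β : ℝ) (hp : 0 < p) (hα : |α| ≤ 2) (hβ : |β| ≤ 2) (ht0 : 0 ≤ t)
    (ht1 : t ≤ 1) (hB0 : 0 ≤ B) (hB1 : B ≤ 1) (h : |t - B| ≤ 1 / p) :
    |p * ((α * t + β / 2 * t ^ 2) - (α * B + β / 2 * B ^ 2))| ≤ 4 := by
  have e : p * ((α * t + β / 2 * t ^ 2) - (α * B + β / 2 * B ^ 2)) =
      (p * (t - B)) * (α + β * ((t + B) / 2)) := by ring
  rw [e, abs_mul, abs_mul, abs_of_pos hp]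
  have h1 : p * |t - B| ≤ 1 := by
    calc p * |t - B| ≤ p * (1 / p) := mul_le_mul_of_nonneg_left h hp.le
      _ = 1 := by field_simp
  have h2 : |α + β * ((t + B) / 2)| ≤ 4 := by
    have h3 : |(t + B) / 2| ≤ 1 := by rw [abs_le]; constructor <;> linarith
    have h4 : |β * ((t + B) / 2)| ≤ 2 * 1 := by
      rw [abs_mul]
      exact mul_le_mul hβ h3 (abs_nonneg _) (by norm_num)
    have h5 := abs_add_le α (β * ((t + B) / 2))
    linarith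
  calc p * |t - B| * |α + β * ((t + B) / 2)| ≤ 1 * 4 :=
        mul_le_mul h1 h2 (abs_nonneg _) (by norm_num)
    _ = 4 := by norm_num

theorem lin_sum_ge (p : ℕ) (hp : 0 < p) (α β A B : ℝ) (a b : ℕ) (hab : a ≤ b) (hbp : b ≤ p)
    (hα : |α| ≤ 2) (hβ : |β| ≤ 2) (hA0 : 0 ≤ A) (hA1 : A ≤ 1) (hB0 : 0 ≤ B) (hB1 : B ≤ 1)
    (ha : |(a : ℝ) / p - A| ≤ 1 / p) (hb : |(b : ℝ) / p - B| ≤ 1 / p) :
    p * ((α * B + β / 2 * B ^ 2) - (α * A + β / 2 * A ^ 2)) - 9 ≤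
      ∑ x ∈ Finset.Ico a b, (α + β * ((x : ℝ) / p)) := by
  rw [lin_sum p hp α β a b hab]
  have hp0 : (0 : ℝ) < p := by exact_mod_cast hp
  have hapR : (a : ℝ) ≤ p := by exact_mod_cast hab.trans hbp
  have hbpR : (b : ℝ) ≤ p := by exact_mod_cast hbp
  have habR : (a : ℝ) ≤ b := by exact_mod_cast hab
  have h1 := quad_near p ((b : ℝ) / p) B α β hp0 hα hβ (by positivity)
    (by rw [div_le_one hp0]; exact hbpR) hB0 hB1 hb
  have h2 := quad_near p ((a : ℝ) / p) A α β hp0 hα hβ (by positivity)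
    (by rw [div_le_one hp0]; exact hapR) hA0 hA1 ha
  have h3 : |β / 2 * (((b : ℝ) - a) / p)| ≤ 1 := by
    have h4 : |((b : ℝ) - a) / p| ≤ 1 := by
      rw [abs_of_nonneg (div_nonneg (by linarith) hp0.le), div_le_one hp0]
      have : (0 : ℝ) ≤ a := Nat.cast_nonneg _
      linarith
    have h5 : |β / 2| ≤ 1 := by
      rw [abs_div, abs_of_pos (by norm_num : (0 : ℝ) < 2)]
      linarith
    rw [abs_mul]
    calc |β / 2| * |((b : ℝ) - a) / p| ≤ 1 * 1 :=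
          mul_le_mul h5 h4 (abs_nonneg _) (by norm_num)
      _ = 1 := by norm_num
  rw [abs_le] at h1 h2 h3
  linarith [h1.1, h1.2, h2.1, h2.2, h3.1, h3.2]

theorem ceil_near (p : ℕ) (hp : 0 < p) (A : ℝ) (hA : 0 ≤ A) :
    |((⌈A * p⌉₊ : ℕ) : ℝ) / p - A| ≤ 1 / p := by
  have hp0 : (0 : ℝ) < p := by exact_mod_cast hp
  have h1 := Nat.le_ceil (A * p)
  have h2 := (Nat.ceil_lt_add_one (by positivity : 0 ≤ A * (p : ℝ))).le
  have e : ((⌈A * p⌉₊ : ℕ) : ℝ) / p - A = (((⌈A * p⌉₊ : ℕ) : ℝ) - A * p) / p := by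
    field_simp
  rw [e, abs_of_nonneg (div_nonneg (by linarith) hp0.le)]
  apply div_le_div_of_nonneg_right _ hp0.le
  linarith

theorem floor_near (p : ℕ) (hp : 0 < p) (A : ℝ) (hA : 0 ≤ A) :
    |((⌊A * p⌋₊ + 1 : ℕ) : ℝ) / p - A| ≤ 1 / p := by
  have hp0 : (0 : ℝ) < p := by exact_mod_cast hp
  have h1 := (Nat.lt_floor_add_one (A * p)).le
  have h2 := (Nat.floor_le (by positivity : 0 ≤ A * (p : ℝ)))
  push_cast
  have e : (((⌊A * p⌋₊ : ℕ) : ℝ) + 1) / p - A = (((⌊A * p⌋₊ : ℕ) : ℝ) + 1 - A * p) / p := by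
    field_simp
  rw [e, abs_of_nonneg (div_nonneg (by linarith) hp0.le)]
  apply div_le_div_of_nonneg_right _ hp0.le
  linarith

theorem hh_sum (η : ℝ) (hη : 0 < η) (hη1 : η ≤ 1 / 100) (p : ℕ) (hp : 100 ≤ p) :
    p * (29 / 96 - η) - 36 ≤ ∑ x ∈ Finset.range p, hh η ((x : ℝ) / p) := by
  have hp1 : 0 < p := by omega
  have hp0 : (0 : ℝ) < p := by exact_mod_cast hp1
  have hp100 : (100 : ℝ) ≤ p := by exact_mod_cast hp
  obtain ⟨a1, ha1⟩ : ∃ a1 : ℕ, a1 = ⌈(1 / 2 : ℝ) * p⌉₊ := ⟨_, rfl⟩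
  obtain ⟨a2, ha2⟩ : ∃ a2 : ℕ, a2 = ⌈(7 / 12 : ℝ) * p⌉₊ := ⟨_, rfl⟩
  obtain ⟨a3, ha3⟩ : ∃ a3 : ℕ, a3 = ⌊(7 / 12 + η : ℝ) * p⌋₊ + 1 := ⟨_, rfl⟩
  obtain ⟨a4, ha4⟩ : ∃ a4 : ℕ, a4 = ⌈(3 / 4 : ℝ) * p⌉₊ := ⟨_, rfl⟩
  have n1 : |((a1 : ℕ) : ℝ) / p - 1 / 2| ≤ 1 / p := by rw [ha1]; exact ceil_near p hp1 _ (by norm_num)
  have n2 : |((a2 : ℕ) : ℝ) / p - 7 / 12| ≤ 1 / p := by rw [ha2]; exact ceil_near p hp1 _ (by norm_num)
  have n3 : |((a3 : ℕ) : ℝ) / p - (7 / 12 + η)| ≤ 1 / p := by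
    rw [ha3]; exact floor_near p hp1 _ (by positivity)
  have n4 : |((a4 : ℕ) : ℝ) / p - 3 / 4| ≤ 1 / p := by rw [ha4]; exact ceil_near p hp1 _ (by norm_num)
  have n0 : |((0 : ℕ) : ℝ) / p - 0| ≤ 1 / p := by simp
  have n5 : |((p : ℕ) : ℝ) / p - 1| ≤ 1 / p := by
    rw [div_self hp0.ne']; simp
  have o12 : a1 ≤ a2 := by
    rw [ha1, ha2]; exact Nat.ceil_mono (by nlinarith)
  have o23 : a2 ≤ a3 := by
    rw [ha2, ha3, Nat.ceil_le]
    have := (Nat.lt_floor_add_one ((7 / 12 + η : ℝ) * p)).le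
    push_cast
    nlinarith
  have o34 : a3 ≤ a4 := by
    rw [ha3, ha4]
    have h1 : (⌊(7 / 12 + η : ℝ) * p⌋₊ : ℝ) ≤ (7 / 12 + η : ℝ) * p := Nat.floor_le (by positivity)
    have h2 := Nat.le_ceil ((3 / 4 : ℝ) * p)
    have h3 : ((⌊(7 / 12 + η : ℝ) * p⌋₊ + 1 : ℕ) : ℝ) ≤ (⌈(3 / 4 : ℝ) * p⌉₊ : ℝ) := by
      push_cast
      nlinarith
    exact_mod_cast h3
  have o4p : a4 ≤ p := by
    rw [ha4, Nat.ceil_le]
    nlinarith
  have m1 : ∀ x : ℕ, x < a1 ↔ (x : ℝ) / p < 1 / 2 := by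
    intro x; rw [ha1, Nat.lt_ceil, div_lt_iff₀ hp0]
  have m2 : ∀ x : ℕ, x < a2 ↔ (x : ℝ) / p < 7 / 12 := by
    intro x; rw [ha2, Nat.lt_ceil, div_lt_iff₀ hp0]
  have m3 : ∀ x : ℕ, a3 ≤ x → 7 / 12 + η < (x : ℝ) / p := by
    intro x hx
    rw [lt_div_iff₀ hp0]
    rw [ha3] at hx
    exact (Nat.floor_lt (by positivity)).1 (by omega)
  have m3' : ∀ x : ℕ, x < a3 → (x : ℝ) / p ≤ 7 / 12 + η := by
    intro x hx
    rw [div_le_iff₀ hp0]
    rw [ha3] at hx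
    exact (Nat.le_floor_iff (by positivity)).1 (by omega)
  have m4 : ∀ x : ℕ, x < a4 ↔ (x : ℝ) / p < 3 / 4 := by
    intro x; rw [ha4, Nat.lt_ceil, div_lt_iff₀ hp0]
  rw [Finset.range_eq_Ico, ← Finset.sum_Ico_consecutive _ (Nat.zero_le a1) (o12.trans
    (o23.trans (o34.trans o4p))), ← Finset.sum_Ico_consecutive _ o12 (o23.trans (o34.trans o4p)),
    ← Finset.sum_Ico_consecutive _ o23 (o34.trans o4p), ← Finset.sum_Ico_consecutive _ o34 o4p]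
  have s1 : ∑ x ∈ Finset.Ico 0 a1, hh η ((x : ℝ) / p) =
      ∑ x ∈ Finset.Ico 0 a1, (0 + 1 * ((x : ℝ) / p)) := by
    apply Finset.sum_congr rfl
    intro x hx
    have hx := Finset.mem_Ico.1 hx
    unfold hh
    rw [if_pos ((m1 x).1 hx.2)]
    ring
  have s2 : ∑ x ∈ Finset.Ico a1 a2, hh η ((x : ℝ) / p) =
      ∑ x ∈ Finset.Ico a1 a2, (1 + (-1) * ((x : ℝ) / p)) := by
    apply Finset.sum_congr rfl
    intro x hx
    have hx := Finset.mem_Ico.1 hx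
    unfold hh
    rw [if_neg (fun h => absurd ((m1 x).2 h) (by omega)), if_pos ((m2 x).1 hx.2)]
    ring
  have s3 : 0 ≤ ∑ x ∈ Finset.Ico a2 a3, hh η ((x : ℝ) / p) := by
    apply Finset.sum_nonneg
    intro x hx
    have hx := Finset.mem_Ico.1 hx
    unfold hh
    rw [if_neg (fun h => absurd ((m1 x).2 h) (by omega)),
      if_neg (fun h => absurd ((m2 x).2 h) (by omega)), if_pos (m3' x hx.2)]
  have s4 : ∑ x ∈ Finset.Ico a3 a4, hh η ((x : ℝ) / p) =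
      ∑ x ∈ Finset.Ico a3 a4, ((1 / 8 - η) + (1 / 2) * ((x : ℝ) / p)) := by
    apply Finset.sum_congr rfl
    intro x hx
    have hx := Finset.mem_Ico.1 hx
    unfold hh
    rw [if_neg (fun h => absurd ((m1 x).2 h) (by omega)),
      if_neg (fun h => absurd ((m2 x).2 h) (by omega)), if_neg (not_le.2 (m3 x hx.1)),
      if_pos ((m4 x).1 hx.2)]
    ring
  have s5 : ∑ x ∈ Finset.Ico a4 p, hh η ((x : ℝ) / p) =
      ∑ x ∈ Finset.Ico a4 p, ((2 - η) + (-2) * ((x : ℝ) / p)) := by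
    apply Finset.sum_congr rfl
    intro x hx
    have hx := Finset.mem_Ico.1 hx
    unfold hh
    rw [if_neg (fun h => absurd ((m1 x).2 h) (by omega)),
      if_neg (fun h => absurd ((m2 x).2 h) (by omega)), if_neg (not_le.2 (m3 x (by omega))),
      if_neg (fun h => absurd ((m4 x).2 h) (by omega))]
    ring
  have t1 := lin_sum_ge p hp1 0 1 0 (1 / 2) 0 a1 (Nat.zero_le _)
    (o12.trans (o23.trans (o34.trans o4p))) (by norm_num) (by norm_num) le_rfl (by norm_num)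
    (by norm_num) (by norm_num) n0 n1
  have t2 := lin_sum_ge p hp1 1 (-1) (1 / 2) (7 / 12) a1 a2 o12
    (o23.trans (o34.trans o4p)) (by norm_num) (by norm_num) (by norm_num) (by norm_num)
    (by norm_num) (by norm_num) n1 n2
  have t4 := lin_sum_ge p hp1 (1 / 8 - η) (1 / 2) (7 / 12 + η) (3 / 4) a3 a4 o34
    o4p (by rw [abs_le]; constructor <;> linarith) (by rw [abs_le]; constructor <;> norm_num)
    (by positivity) (by linarith) (by norm_num) (by norm_num) n3 n4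
  have t5 := lin_sum_ge p hp1 (2 - η) (-2) (3 / 4) 1 a4 p o4p le_rfl
    (by rw [abs_le]; constructor <;> linarith) (by norm_num) (by norm_num) (by norm_num)
    (by norm_num) (by norm_num) n4 n5
  rw [s1, s2, s4, s5]
  have key : p * (29 / 96 - η) ≤
      p * ((0 * (1 / 2) + 1 / 2 * (1 / 2) ^ 2) - (0 * 0 + 1 / 2 * 0 ^ 2)) +
      p * ((1 * (7 / 12) + -1 / 2 * (7 / 12) ^ 2) - (1 * (1 / 2) + -1 / 2 * (1 / 2) ^ 2)) +
      p * (((1 / 8 - η) * (3 / 4) + 1 / 2 / 2 * (3 / 4) ^ 2) -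
        ((1 / 8 - η) * (7 / 12 + η) + 1 / 2 / 2 * (7 / 12 + η) ^ 2)) +
      p * (((2 - η) * 1 + -2 / 2 * 1 ^ 2) - ((2 - η) * (3 / 4) + -2 / 2 * (3 / 4) ^ 2)) := by
    rw [← mul_add, ← mul_add, ← mul_add]
    apply mul_le_mul_of_nonneg_left _ hp0.le
    nlinarith
  linarith

end Vale.Agent.P057.H203
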