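import Vale.Agent.P057.Bdl.B1

/-!
# P057 : the tower with general costs, and its limit form
-/

set_option linter.all false
set_option autoImplicit false

open Finset Vale.Agent.P057.Lower

namespace Vale.Agent.P057.H203

theorem Asy.mono' {k D s : ℕ} {G G' : ℝ} (h : Asy k D s G) (hG : 0 ≤ G) (hGG : G ≤ G') :
    Asy k D s G' := by
  intro ε hε
  obtain ⟨N0, hN0⟩ := h ε hε
  refine ⟨N0, fun N hN => (hN0 N hN).mono ?_⟩
  apply Real.exp_le_exp.2
  have hlog : 0 ≤ Real.log N := Real.log_natCast_nonneg N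
  have h1 : (G * Real.log N) ^ ((1 : ℝ) / s) ≤ (G' * Real.log N) ^ ((1 : ℝ) / s) :=
    Real.rpow_le_rpow (mul_nonneg hG hlog) (mul_le_mul_of_nonneg_right hGG hlog) (by positivity)
  have h2 : (1 + ε) * s * (G * Real.log N) ^ ((1 : ℝ) / s) ≤
      (1 + ε) * s * (G' * Real.log N) ^ ((1 : ℝ) / s) :=
    mul_le_mul_of_nonneg_left h1 (by positivity)
  linarith

theorem tower_aux (k n : ℕ) (hn : 2 ≤ n) (hk : 2 ^ (n - 1) < k) (c : ℕ → ℝ)
    (hc : ∀ j, j + 2 ≤ n → 0 < c j ∧ Cost k (2 ^ j) (c j)) :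
    ∀ t, t + 1 ≤ n → Asy k (2 ^ (n - 1 - t)) (t + 1) (∏ j ∈ range t, (2 * c (n - 2 - j))) := by
  intro t
  induction t with
  | zero =>
    intro _
    simp only [Nat.sub_zero, zero_add, range_zero, prod_empty]
    exact base k _ Nat.one_le_two_pow hk
  | succ t ih =>
    intro ht
    have h := ih (by omega)
    have e0 : n - 1 - (t + 1) = n - 2 - t := by omega
    have e1 : 2 ^ (n - 1 - t) = 2 * 2 ^ (n - 2 - t) := by
      rw [← pow_succ']
      congr 1
      omega
    rw [e1] at h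
    have hlt : 2 ^ (n - 2 - t) < k :=
      lt_of_le_of_lt (Nat.pow_le_pow_right (by norm_num) (by omega)) hk
    obtain ⟨h1, h2⟩ := hc (n - 2 - t) (by omega)
    have hG : 0 < ∏ j ∈ range t, (2 * c (n - 2 - j)) := by
      apply Finset.prod_pos
      intro j hj
      have hj' := Finset.mem_range.1 hj
      have := (hc (n - 2 - j) (by omega)).1
      positivity
    have hst := step k (2 ^ (n - 2 - t)) (t + 1) Nat.one_le_two_pow hlt (by omega)
      (c (n - 2 - t)) _ h1 hG h2 h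
    rw [e0, Finset.prod_range_succ]
    have e2 : 2 * c (n - 2 - t) * ∏ j ∈ range t, (2 * c (n - 2 - j)) =
        (∏ j ∈ range t, (2 * c (n - 2 - j))) * (2 * c (n - 2 - t)) := by ring
    rw [e2] at hst
    exact hst

/-- the tower with general costs -/
theorem tower (k n : ℕ) (hn : 2 ≤ n) (hk : 2 ^ (n - 1) < k) (c : ℕ → ℝ)
    (hc : ∀ j, j + 2 ≤ n → 0 < c j ∧ Cost k (2 ^ j) (c j)) :
    Asy k 1 n (∏ j ∈ Finset.range (n - 1), (2 * c j)) := by
  have h := tower_aux k n hn hk c hc (n - 1) (by omega)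
  have e1 : n - 1 - (n - 1) = 0 := by omega
  have e2 : n - 1 + 1 = n := by omega
  rw [e1, e2, pow_zero] at h
  have e3 : ∏ j ∈ range (n - 1), (2 * c (n - 2 - j)) = ∏ j ∈ range (n - 1), (2 * c j) := by
    rw [← Finset.prod_range_reflect (fun j => 2 * c j) (n - 1)]
    apply Finset.prod_congr rfl
    intro j _
    congr 2
  rw [e3] at h
  exact h

theorem prod_two_pow (n : ℕ) : ∏ j ∈ range (n - 1), (2 * (((2 ^ j : ℕ) : ℝ) * Real.log 2)) =
    2 ^ (n * (n - 1) / 2) * Real.log 2 ^ (n - 1) := by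
  have h1 : ∀ j : ℕ, 2 * (((2 ^ j : ℕ) : ℝ) * Real.log 2) = 2 ^ (j + 1) * Real.log 2 := by
    intro j
    push_cast
    ring
  simp_rw [h1]
  rw [Finset.prod_mul_distrib, Finset.prod_const, Finset.card_range, Finset.prod_pow_eq_pow_sum]
  congr 2
  rcases Nat.eq_zero_or_pos n with h | h
  · subst h; rfl
  · have h2 : ∑ j ∈ range (n - 1), (j + 1) = ∑ j ∈ range n, j := by
      have h4 : n = (n - 1) + 1 := by omega
      conv_rhs => rw [h4]
      rw [Finset.sum_range_succ' (fun j => j) (n - 1)]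
      simp
    rw [h2, Finset.sum_range_id]

/-- limit form: if all levels `D0 ≤ D ≤ k ^ (1/10)` have cost `θ D log 2`, then the constant is
`o(O'Bryant's constant)` -/
theorem small_of (H : ∀ θ : ℝ, 0 < θ → ∃ D0 K0 : ℕ, ∀ k, K0 ≤ k → ∀ D, D0 ≤ D → D ^ 10 ≤ k →
      Cost k D (θ * D * Real.log 2)) :
    ∀ c : ℝ, 0 < c → ∃ K : ℕ, ∀ k, K ≤ k → ∀ n, n = Nat.clog 2 k →
      2 ≤ n ∧ 2 ^ (n - 1) < k ∧
        Asy k 1 n (c ^ n * 2 ^ (n * (n - 1) / 2) * Real.log 2 ^ (n - 1)) := by
  intro c hc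
  set c' : ℝ := min c 1 with hc'
  have hc'0 : 0 < c' := lt_min hc one_pos
  have hc'1 : c' ≤ 1 := min_le_right _ _
  have hc'c : c' ≤ c := min_le_left _ _
  have hθ : 0 < c' ^ 20 := by positivity
  have hθ1 : c' ^ 20 ≤ 1 := pow_le_one₀ hc'0.le hc'1
  obtain ⟨D0, K0, hDK⟩ := H (c' ^ 20) hθ
  refine ⟨max (max K0 2) (2 ^ (20 * (D0 + 3)) + 1), fun k hk n hn => ?_⟩
  have hkK0 : K0 ≤ k := le_trans (le_trans (le_max_left _ _) (le_max_left _ _)) hk
  have hk2 : 2 ≤ k := le_trans (le_trans (le_max_right _ _) (le_max_left _ _)) hk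
  have hkbig : 2 ^ (20 * (D0 + 3)) < k := lt_of_lt_of_le (Nat.lt_succ_self _)
    (le_trans (le_max_right _ _) hk)
  have hnk : 2 ^ (n - 1) < k := by
    rw [hn]; exact Nat.pow_pred_clog_lt_self (by norm_num) (by omega)
  have hnbig : 20 * (D0 + 3) < n := by
    by_contra hcon
    push Not at hcon
    have h3 : k ≤ 2 ^ Nat.clog 2 k := Nat.le_pow_clog (by norm_num) k
    rw [← hn] at h3
    have h4 : 2 ^ n ≤ 2 ^ (20 * (D0 + 3)) := Nat.pow_le_pow_right (by norm_num) hcon
    omega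
  have hlog : 0 < Real.log 2 := Real.log_pos (by norm_num)
  refine ⟨by omega, hnk, ?_⟩
  -- the costs
  let good : ℕ → Prop := fun j => D0 ≤ j ∧ 10 * j ≤ n - 1
  classical
  let e : ℕ → ℝ := fun j => if good j then c' ^ 20 else 1
  have he0 : ∀ j, 0 < e j := by
    intro j
    simp only [e]
    split_ifs
    · exact hθ
    · exact one_pos
  have hcost : ∀ j, j + 2 ≤ n → 0 < e j * (((2 ^ j : ℕ) : ℝ) * Real.log 2) ∧
      Cost k (2 ^ j) (e j * (((2 ^ j : ℕ) : ℝ) * Real.log 2)) := by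
    intro j hj
    refine ⟨mul_pos (he0 j) (mul_pos (by positivity) hlog), ?_⟩
    by_cases hg : good j
    · have h1 : e j = c' ^ 20 := if_pos hg
      rw [h1]
      have h2 := hDK k hkK0 (2 ^ j) (le_trans hg.1 (Nat.lt_two_pow_self).le) (by
        rw [← pow_mul]
        have : 2 ^ (j * 10) ≤ 2 ^ (n - 1) := Nat.pow_le_pow_right (by norm_num) (by
          have := hg.2; omega)
        omega)
      rw [mul_assoc] at h2
      exact h2
    · have h1 : e j = 1 := if_neg hg
      rw [h1, one_mul]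
      exact cost_interval k (2 ^ j)
  have hT := tower k n (by omega) hnk (fun j => e j * (((2 ^ j : ℕ) : ℝ) * Real.log 2)) hcost
  refine Asy.mono' hT (Finset.prod_nonneg (fun j _ => ?_)) ?_
  · have := he0 j
    positivity
  · have e1 : ∏ j ∈ range (n - 1), (2 * (e j * (((2 ^ j : ℕ) : ℝ) * Real.log 2))) =
        (∏ j ∈ range (n - 1), e j) * ∏ j ∈ range (n - 1),
          (2 * (((2 ^ j : ℕ) : ℝ) * Real.log 2)) := by
      rw [← Finset.prod_mul_distrib]
      apply Finset.prod_congr rfl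
      intro j _
      ring
    rw [e1, prod_two_pow, mul_assoc]
    apply mul_le_mul_of_nonneg_right _ (by positivity)
    -- the product of the gains
    set S : Finset ℕ := (range (n - 1)).filter good with hS
    have e2 : ∏ j ∈ range (n - 1), e j = (c' ^ 20) ^ S.card := by
      simp only [e]
      rw [Finset.prod_ite, Finset.prod_const, Finset.prod_const_one, mul_one]
    have hScard : n ≤ 20 * S.card := by
      have h1 : Finset.Icc D0 ((n - 1) / 10) ⊆ S := by
        intro j hj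
        rw [Finset.mem_Icc] at hj
        rw [hS, Finset.mem_filter, Finset.mem_range]
        exact ⟨by omega, hj.1, by omega⟩
      have h2 := Finset.card_le_card h1
      rw [Nat.card_Icc] at h2
      omega
    rw [e2, ← pow_mul]
    calc c' ^ (20 * S.card) ≤ c' ^ n := pow_le_pow_of_le_one hc'0.le hc'1 hScard
      _ ≤ c ^ n := pow_le_pow_left₀ hc'0.le hc'c n

end Vale.Agent.P057.H203
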