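import Vale.Agent.P057.H562.LogM
import Vale.Agent.P057.H203.Tow

/-! # P057: the numbers for the block with the Vandermonde polynomial (after helper664) -/

set_option linter.all false
set_option autoImplicit false

namespace Vale.Agent.P057.H203

open Real Vale.Agent.P057.H562 Vale.Agent.P057.Lower

theorem exists_v (θ : ℝ) (hθ : 0 < θ) : ∃ v : ℕ, 2 ≤ v ∧
    Real.log (v.factorial : ℝ) ≤ θ * ((v * (v - 1) / 2 : ℕ) : ℝ) := by
  have h := Real.isLittleO_log_id_atTop.bound (c := θ / 4) (by positivity)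
  rw [Filter.eventually_atTop] at h
  obtain ⟨B, hB⟩ := h
  obtain ⟨v, hv⟩ := exists_nat_ge (max B 2)
  have hvB : B ≤ v := (le_max_left _ _).trans hv
  have hv2 : (2 : ℝ) ≤ v := (le_max_right _ _).trans hv
  have hv2' : 2 ≤ v := by exact_mod_cast hv2
  refine ⟨v, hv2', ?_⟩
  have h1 := hB v hvB
  simp only [id, Real.norm_eq_abs] at h1
  rw [abs_of_nonneg (by positivity : (0 : ℝ) ≤ v)] at h1
  have h1' := (le_abs_self _).trans h1
  have h2 : Real.log (v.factorial : ℝ) ≤ v * Real.log v := by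
    have : (v.factorial : ℝ) ≤ (v : ℝ) ^ v := by exact_mod_cast Nat.factorial_le_pow v
    calc Real.log (v.factorial : ℝ) ≤ Real.log ((v : ℝ) ^ v) :=
          Real.log_le_log (by exact_mod_cast Nat.factorial_pos v) this
      _ = v * Real.log v := by rw [Real.log_pow]
  have h3 : (((v * (v - 1) / 2 : ℕ)) : ℝ) = (v : ℝ) * (v - 1) / 2 := by
    rw [Nat.cast_div (Nat.even_mul_pred_self v).two_dvd (by norm_num), Nat.cast_mul,
      Nat.cast_sub (by omega)]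
    norm_num
  rw [h3]
  nlinarith [mul_le_mul_of_nonneg_left h1' (by positivity : (0 : ℝ) ≤ v),
    mul_nonneg (mul_nonneg hθ.le (by positivity : (0 : ℝ) ≤ v)) (by linarith : (0 : ℝ) ≤ v - 2)]

/-- the numbers -/
theorem numM (θ : ℝ) (hθ : 0 < θ) : ∃ v : ℕ, 2 ≤ v ∧ ∃ D0 : ℕ, 1 ≤ D0 ∧ ∀ D : ℕ, D0 ≤ D →
    ∃ r L w : ℕ, D + 1 ≤ r * (v * (v - 1) / 2) ∧
    (r : ℝ) * Real.log (v.factorial : ℝ) + 2 * Real.log 2 ≤ θ * D * Real.log 2 ∧
    r * (v * (v - 1) / 2) < L ∧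
    L ^ ((r * (v * (v - 1) / 2)) * (r * (v * (v - 1) / 2))) < 2 ^ w ∧
      2 * ((r * (v * (v - 1) / 2) : ℕ) : ℝ) ^ 2 *
        ((w + 1) * Real.log (modu v.factorial D)) < L ∧
      v.factorial * L ≤ D ^ 10 ∧ v.factorial * (D + 5) ≤ D ^ 10 := by
  have hl2 : 0 < Real.log 2 := Real.log_pos (by norm_num)
  obtain ⟨v, hv, hvθ⟩ := exists_v (θ * Real.log 2 / 2) (by positivity)
  obtain ⟨E, hE⟩ : ∃ E, E = v * (v - 1) / 2 := ⟨_, rfl⟩
  obtain ⟨N, hN⟩ : ∃ N, N = v.factorial := ⟨_, rfl⟩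
  have hE0 : 0 < E := by
    rw [hE]
    have : 2 ≤ v * (v - 1) := by
      calc 2 = 2 * 1 := by norm_num
        _ ≤ v * (v - 1) := Nat.mul_le_mul hv (by omega)
    omega
  have hN0 : 0 < N := hN ▸ Nat.factorial_pos v
  obtain ⟨B, hB⟩ := exists_nat_ge ((Real.log N + 2 * Real.log 2) / (θ * Real.log 2 / 2))
  refine ⟨v, hv, B + E + N + 9999, by omega, fun D hD => ?_⟩
  rw [← hE, ← hN]
  rw [← hE, ← hN] at hvθ
  have hDE : E ≤ D := by omega
  have hDN : N ≤ D := by omega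
  have hD35 : 9999 ≤ D := by omega
  have hDB : B ≤ D := by omega
  have hD35r : (9999 : ℝ) ≤ D := by exact_mod_cast hD35
  obtain ⟨d, hd⟩ : ∃ d, d = (D / E + 1) * E := ⟨_, rfl⟩
  have hd1 : d ≤ 2 * D := by
    rw [hd, add_mul, one_mul]
    have := Nat.div_mul_le_self D E
    omega
  have hdD : D + 1 ≤ d := by
    rw [hd, add_mul, one_mul]
    have h1 := Nat.div_add_mod D E
    have h2 := Nat.mod_lt D hE0
    have h3 : D / E * E = E * (D / E) := Nat.mul_comm _ _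
    omega
  have hd0 : 0 < d := by omega
  refine ⟨D / E + 1, D ^ 9, 9 * (d * d) * D, ?_, ?_, ?_, ?_, ?_, ?_, ?_⟩
  · rw [← hd]; exact hdD
  · have h1 : (Real.log N + 2 * Real.log 2) ≤ D * (θ * Real.log 2 / 2) := by
      have : (Real.log N + 2 * Real.log 2) / (θ * Real.log 2 / 2) ≤ D :=
        hB.trans (by exact_mod_cast hDB)
      rwa [div_le_iff₀ (by positivity)] at this
    have h2 : ((D / E : ℕ) : ℝ) * E ≤ D := by exact_mod_cast Nat.div_mul_le_self D E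
    have h3 : ((D / E : ℕ) : ℝ) * Real.log N ≤ (θ * Real.log 2 / 2) * D := by
      calc ((D / E : ℕ) : ℝ) * Real.log N ≤ ((D / E : ℕ) : ℝ) * (θ * Real.log 2 / 2 * E) :=
            mul_le_mul_of_nonneg_left hvθ (Nat.cast_nonneg _)
        _ = (θ * Real.log 2 / 2) * (((D / E : ℕ) : ℝ) * E) := by ring
        _ ≤ (θ * Real.log 2 / 2) * D := mul_le_mul_of_nonneg_left h2 (by positivity)
    push_cast
    nlinarith
  · rw [← hd]
    calc d ≤ 2 * D := hd1
      _ < D * D := Nat.mul_lt_mul_of_pos_right (by omega) (by omega)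
      _ = D ^ 2 := by ring
      _ ≤ D ^ 9 := Nat.pow_le_pow_right (by omega) (by norm_num)
  · rw [← hd]
    have h1 : D < 2 ^ D := Nat.lt_two_pow_self
    calc (D ^ 9) ^ (d * d) = D ^ (9 * (d * d)) := by rw [← pow_mul]
      _ < (2 ^ D) ^ (9 * (d * d)) := Nat.pow_lt_pow_left h1 (by positivity)
      _ = 2 ^ (9 * (d * d) * D) := by rw [← pow_mul]; ring_nf
  · rw [← hd]
    have hlog : Real.log (modu N D) ≤ 12 * (D : ℝ) ^ 3 := by
      have h0 := log_modu N D hN0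
      have hN0r : (0 : ℝ) < N := by exact_mod_cast hN0
      have e2 : Real.log N ≤ D := by
        have h1 := Real.log_le_sub_one_of_pos hN0r
        have h2 : (N : ℝ) ≤ D := by exact_mod_cast hDN
        linarith
      have e3 : Real.log ((D : ℝ) + 2) ≤ D + 1 := by
        have h3 := Real.log_le_sub_one_of_pos (show (0 : ℝ) < (D : ℝ) + 2 by positivity)
        linarith
      have e4 : Real.log N + Real.log ((D : ℝ) + 2) + 1 ≤ 3 * D := by linarith
      have e5 : ((D : ℝ) + 2) ^ 2 ≤ 4 * (D : ℝ) ^ 2 := by nlinarith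
      calc Real.log (modu N D) ≤ ((D : ℝ) + 2) ^ 2 * (Real.log N + Real.log ((D : ℝ) + 2) + 1) := h0
        _ ≤ ((D : ℝ) + 2) ^ 2 * (3 * D) := mul_le_mul_of_nonneg_left e4 (by positivity)
        _ ≤ (4 * (D : ℝ) ^ 2) * (3 * D) := mul_le_mul_of_nonneg_right e5 (by positivity)
        _ = 12 * (D : ℝ) ^ 3 := by ring
    have hdr : (d : ℝ) ≤ 2 * D := by exact_mod_cast hd1
    have hd0r : (0 : ℝ) < d := by exact_mod_cast hd0
    have hd2 : (d : ℝ) ^ 2 ≤ 4 * (D : ℝ) ^ 2 := by nlinarith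
    have hw : ((9 * (d * d) * D : ℕ) : ℝ) + 1 ≤ 37 * (D : ℝ) ^ 3 := by
      push_cast
      have h1 : (9 : ℝ) * (d * d) * D ≤ 36 * (D : ℝ) ^ 3 := by
        calc (9 : ℝ) * (d * d) * D = 9 * (d : ℝ) ^ 2 * D := by ring
          _ ≤ 9 * (4 * (D : ℝ) ^ 2) * D := by gcongr
          _ = 36 * (D : ℝ) ^ 3 := by ring
      have h2 : (1 : ℝ) ≤ (D : ℝ) ^ 3 := one_le_pow₀ (by linarith)
      linarith
    have hl0 : 0 ≤ Real.log (modu N D) := Real.log_natCast_nonneg _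
    calc 2 * (d : ℝ) ^ 2 * ((((9 * (d * d) * D : ℕ)) + 1) * Real.log (modu N D))
        ≤ 2 * (4 * (D : ℝ) ^ 2) * ((37 * (D : ℝ) ^ 3) * (12 * (D : ℝ) ^ 3)) := by
          gcongr
      _ = 3552 * (D : ℝ) ^ 8 := by ring
      _ < D * (D : ℝ) ^ 8 := by
          apply mul_lt_mul_of_pos_right _ (by positivity)
          linarith
      _ = ((D ^ 9 : ℕ) : ℝ) := by push_cast; ring
  · calc N * D ^ 9 ≤ D * D ^ 9 := Nat.mul_le_mul_right _ hDN
      _ = D ^ 10 := by ring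
  · calc N * (D + 5) ≤ D * (D * D) := Nat.mul_le_mul hDN (by nlinarith)
      _ = D ^ 3 := by ring
      _ ≤ D ^ 10 := Nat.pow_le_pow_right (by omega) (by norm_num)

theorem Cost.mono' {k D : ℕ} {c c' : ℝ} (h : Cost k D c) (hc : c ≤ c') : Cost k D c' := by
  intro η hη
  obtain ⟨m0, hm0⟩ := h η hη
  refine ⟨m0, fun p hp hpp => ?_⟩
  obtain ⟨U, h1, h2, h3⟩ := hm0 p hp hpp
  exact ⟨U, h1, h2, le_trans (Real.exp_le_exp.2 (by linarith)) h3⟩

/-- all large levels are cheap -/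
theorem H_of_cost_vand (BL : ∀ (v D k r L w : ℕ), 2 ≤ v → 1 ≤ D →
      D + 1 ≤ r * (v * (v - 1) / 2) → v.factorial * L ≤ k → v.factorial * (D + 5) ≤ k →
      r * (v * (v - 1) / 2) < L →
      L ^ ((r * (v * (v - 1) / 2)) * (r * (v * (v - 1) / 2))) < 2 ^ w →
      2 * ((r * (v * (v - 1) / 2) : ℕ) : ℝ) ^ 2 * ((w + 1) * Real.log (modu v.factorial D)) < L →
      Cost k D (r * Real.log v.factorial + 2 * Real.log 2)) :
    ∀ θ : ℝ, 0 < θ → ∃ D0 K0 : ℕ, ∀ k, K0 ≤ k → ∀ D, D0 ≤ D → D ^ 10 ≤ k →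
      Cost k D (θ * D * Real.log 2) := by
  intro θ hθ
  obtain ⟨v, hv, D0, hD0, h⟩ := numM θ hθ
  refine ⟨D0, 0, fun k _ D hD hDk => ?_⟩
  obtain ⟨r, L, w, h1, h2, h3, h4, h5, h6, h7⟩ := h D hD
  exact Cost.mono' (BL v D k r L w hv (by omega) h1 (h6.trans hDk) (h7.trans hDk) h3 h4 h5) h2

end Vale.Agent.P057.H203
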