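import Vale.Agent.P057.H203.TowFin

/-!
# P057 : a power of `n` is saved in the constant
-/

set_option linter.all false
set_option autoImplicit false

open Finset Vale.Agent.P057.Lower

namespace Vale.Agent.P057.H203

/-- if the levels `2 log₂ n + 12 ≤ j ≤ (n - 1) / 10` cost `2 ^ j log 2 / √ n` -/
theorem asy_of_P1 (P1 : ∃ n0 : ℕ, ∀ n, n0 ≤ n → ∀ k, 2 ^ (n - 1) < k →
      ∀ j, 2 * Nat.log 2 n + 12 ≤ j → 10 * j ≤ n - 1 →
        Cost k (2 ^ j) ((Real.sqrt n)⁻¹ * ((2 ^ j : ℕ) : ℝ) * Real.log 2)) :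
    ∃ n1 : ℕ, ∀ n, n1 ≤ n → ∀ k, 2 ^ (n - 1) < k →
      Asy k 1 n (((Real.sqrt n)⁻¹) ^ ((n : ℝ) / 12) *
        (2 ^ (n * (n - 1) / 2) * Real.log 2 ^ (n - 1))) := by
  obtain ⟨n0, hP⟩ := P1
  -- `log₂ n` is small against `n`
  obtain ⟨n2, hn2⟩ : ∃ n2 : ℕ, ∀ n, n2 ≤ n → 120 * (2 * Nat.log 2 n + 14) ≤ n := by
    refine ⟨2 ^ 16, fun n hn => ?_⟩
    have h1 : n ≠ 0 := by
      intro h; rw [h] at hn; norm_num at hn
    have h2 : 16 ≤ Nat.log 2 n := (Nat.le_log_iff_pow_le (by norm_num) h1).2 hn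
    have h3 : 2 ^ Nat.log 2 n ≤ n := Nat.pow_log_le_self 2 h1
    have h4 : ∀ m : ℕ, 16 ≤ m → 120 * (2 * m + 14) ≤ 2 ^ m := by
      intro m hm
      induction m, hm using Nat.le_induction with
      | base => norm_num
      | succ m hm ih => rw [pow_succ]; omega
    exact le_trans (h4 _ h2) h3
  refine ⟨max n0 (max n2 2), fun n hn k hk => ?_⟩
  have hn0 : n0 ≤ n := le_trans (le_max_left _ _) hn
  have hn2' : n2 ≤ n := le_trans (le_trans (le_max_left _ _) (le_max_right _ _)) hn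
  have hn2'' : 2 ≤ n := le_trans (le_trans (le_max_right _ _) (le_max_right _ _)) hn
  have hlogn := hn2 n hn2'
  have hlog : 0 < Real.log 2 := Real.log_pos (by norm_num)
  have hnR : (1 : ℝ) ≤ n := by
    have : 1 ≤ n := by omega
    exact_mod_cast this
  have hs1 : (1 : ℝ) ≤ Real.sqrt n := by
    rw [Real.one_le_sqrt]; exact hnR
  set g : ℝ := (Real.sqrt n)⁻¹ with hg
  have hg0 : 0 < g := by rw [hg]; positivity
  have hg1 : g ≤ 1 := by rw [hg]; exact inv_le_one_of_one_le₀ hs1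
  let good : ℕ → Prop := fun j => 2 * Nat.log 2 n + 12 ≤ j ∧ 10 * j ≤ n - 1
  classical
  let e : ℕ → ℝ := fun j => if good j then g else 1
  have he0 : ∀ j, 0 < e j := by
    intro j
    simp only [e]
    split_ifs
    · exact hg0
    · exact one_pos
  have hcost : ∀ j, j + 2 ≤ n → 0 < e j * (((2 ^ j : ℕ) : ℝ) * Real.log 2) ∧
      Cost k (2 ^ j) (e j * (((2 ^ j : ℕ) : ℝ) * Real.log 2)) := by
    intro j hj
    refine ⟨mul_pos (he0 j) (mul_pos (by positivity) hlog), ?_⟩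
    by_cases hgj : good j
    · have h1 : e j = g := if_pos hgj
      rw [h1, ← mul_assoc]
      exact hP n hn0 k hk j hgj.1 hgj.2
    · have h1 : e j = 1 := if_neg hgj
      rw [h1, one_mul]
      exact cost_interval k (2 ^ j)
  have hT := tower k n hn2'' hk (fun j => e j * (((2 ^ j : ℕ) : ℝ) * Real.log 2)) hcost
  refine Asy.mono' hT (Finset.prod_nonneg (fun j _ => ?_)) ?_
  · have := he0 j
    positivity
  · have e1 : ∏ j ∈ range (n - 1), (2 * (e j * (((2 ^ j : ℕ) : ℝ) * Real.log 2))) =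
        (∏ j ∈ range (n - 1), e j) * ∏ j ∈ range (n - 1),
          (2 * (((2 ^ j : ℕ) : ℝ) * Real.log 2)) := by
      rw [← Finset.prod_mul_distrib]
      apply Finset.prod_congr rfl
      intro j _
      ring
    rw [e1, prod_two_pow]
    apply mul_le_mul_of_nonneg_right _ (by positivity)
    set S : Finset ℕ := (range (n - 1)).filter good with hS
    have e2 : ∏ j ∈ range (n - 1), e j = g ^ S.card := by
      simp only [e]
      rw [Finset.prod_ite, Finset.prod_const, Finset.prod_const_one, mul_one]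
    have hScard : n ≤ 12 * S.card := by
      have h1 : Finset.Icc (2 * Nat.log 2 n + 12) ((n - 1) / 10) ⊆ S := by
        intro j hj
        rw [Finset.mem_Icc] at hj
        rw [hS, Finset.mem_filter, Finset.mem_range]
        exact ⟨by omega, hj.1, by omega⟩
      have h2 := Finset.card_le_card h1
      rw [Nat.card_Icc] at h2
      omega
    rw [e2, ← Real.rpow_natCast g S.card]
    apply Real.rpow_le_rpow_of_exponent_ge hg0 hg1
    have : (n : ℝ) ≤ 12 * S.card := by exact_mod_cast hScard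
    linarith

theorem expo2 (n : ℕ) (hn : 3 ≤ n) (L : ℝ) (hL : 0 ≤ L) :
    (1 + 1 / 4) * (n : ℝ) * ((((Real.sqrt n)⁻¹) ^ ((n : ℝ) / 12) *
        (2 ^ (n * (n - 1) / 2) * Real.log 2 ^ (n - 1))) * L) ^ ((1 : ℝ) / n) ≤
    (n : ℝ) ^ ((23 : ℝ) / 24) * (2 : ℝ) ^ (((n : ℝ) - 1) / 2) * L ^ ((1 : ℝ) / n) := by
  have hnR : (3 : ℝ) ≤ n := by exact_mod_cast hn
  have hn0 : (n : ℝ) ≠ 0 := by positivity
  have hnp : (0 : ℝ) < n := by positivity
  have hlog : 0 ≤ Real.log 2 := Real.log_nonneg (by norm_num)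
  have hlogp : 0 < Real.log 2 := Real.log_pos (by norm_num)
  have hcast : ((n * (n - 1) / 2 : ℕ) : ℝ) = (n : ℝ) * ((n : ℝ) - 1) / 2 := by
    have h1 : 2 * (n * (n - 1) / 2) = n * (n - 1) :=
      Nat.mul_div_cancel' (Nat.even_mul_pred_self n).two_dvd
    have h2 : (2 : ℝ) * ((n * (n - 1) / 2 : ℕ) : ℝ) = (n : ℝ) * ((n - 1 : ℕ) : ℝ) := by
      exact_mod_cast h1
    rw [Nat.cast_sub (by omega), Nat.cast_one] at h2
    linarith
  have hcast2 : ((n - 1 : ℕ) : ℝ) = (n : ℝ) - 1 := by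
    rw [Nat.cast_sub (by omega), Nat.cast_one]
  rw [Real.mul_rpow (by positivity) hL, Real.mul_rpow (by positivity) (by positivity),
    Real.mul_rpow (by positivity) (by positivity)]
  have e2 : ((2 : ℝ) ^ (n * (n - 1) / 2)) ^ ((1 : ℝ) / n) = (2 : ℝ) ^ (((n : ℝ) - 1) / 2) := by
    rw [← Real.rpow_natCast 2 (n * (n - 1) / 2), ← Real.rpow_mul (by norm_num), hcast]
    congr 1
    field_simp
  have e3 : (Real.log 2 ^ (n - 1)) ^ ((1 : ℝ) / n) ≤ 4 / 5 := by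
    rw [← Real.rpow_natCast (Real.log 2) (n - 1), ← Real.rpow_mul hlog, hcast2]
    have h1 : (2 / 3 : ℝ) ≤ ((n : ℝ) - 1) * (1 / n) := by
      rw [mul_one_div, div_le_div_iff₀ (by norm_num) hnp]
      linarith
    have h2 : Real.log 2 ^ (((n : ℝ) - 1) * (1 / n)) ≤ Real.log 2 ^ (2 / 3 : ℝ) :=
      Real.rpow_le_rpow_of_exponent_ge hlogp (by linarith [Real.log_two_lt_d9]) h1
    have h3 : Real.log 2 ^ (2 / 3 : ℝ) ≤ 4 / 5 := by
      have h4 : Real.log 2 ≤ (4 / 5 : ℝ) ^ (3 / 2 : ℝ) := by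
        have h5 : (4 / 5 : ℝ) ^ (3 / 2 : ℝ) = (4 / 5) * Real.sqrt (4 / 5) := by
          rw [Real.sqrt_eq_rpow, ← Real.rpow_one_add' (by norm_num) (by norm_num)]
          norm_num
        rw [h5]
        have h6 : (0.89 : ℝ) ≤ Real.sqrt (4 / 5) := by
          apply Real.le_sqrt_of_sq_le
          norm_num
        have h7 := Real.log_two_lt_d9
        nlinarith
      calc Real.log 2 ^ (2 / 3 : ℝ) ≤ ((4 / 5 : ℝ) ^ (3 / 2 : ℝ)) ^ (2 / 3 : ℝ) :=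
            Real.rpow_le_rpow hlog h4 (by norm_num)
        _ = 4 / 5 := by
            rw [← Real.rpow_mul (by norm_num)]
            norm_num
    exact h2.trans h3
  have e4 : ((((Real.sqrt n)⁻¹) ^ ((n : ℝ) / 12)) ^ ((1 : ℝ) / n)) = (n : ℝ) ^ (-(1 / 24) : ℝ) := by
    rw [← Real.rpow_mul (by positivity), Real.sqrt_eq_rpow, ← Real.rpow_neg hnp.le,
      ← Real.rpow_mul hnp.le]
    congr 1
    field_simp
    norm_num
  have e5 : (n : ℝ) * (n : ℝ) ^ (-(1 / 24) : ℝ) = (n : ℝ) ^ ((23 : ℝ) / 24) := by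
    nth_rewrite 1 [← Real.rpow_one (n : ℝ)]
    rw [← Real.rpow_add hnp]
    norm_num
  rw [e2, e4]
  calc (1 + 1 / 4) * (n : ℝ) * ((n : ℝ) ^ (-(1 / 24) : ℝ) * ((2 : ℝ) ^ (((n : ℝ) - 1) / 2) *
        (Real.log 2 ^ (n - 1)) ^ ((1 : ℝ) / n)) * L ^ ((1 : ℝ) / n))
      = ((n : ℝ) * (n : ℝ) ^ (-(1 / 24) : ℝ)) * (2 : ℝ) ^ (((n : ℝ) - 1) / 2) *
        L ^ ((1 : ℝ) / n) * ((5 / 4) * (Real.log 2 ^ (n - 1)) ^ ((1 : ℝ) / n)) := by ring
    _ ≤ ((n : ℝ) * (n : ℝ) ^ (-(1 / 24) : ℝ)) * (2 : ℝ) ^ (((n : ℝ) - 1) / 2) *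
        L ^ ((1 : ℝ) / n) * ((5 / 4) * (4 / 5)) := by
          apply mul_le_mul_of_nonneg_left _ (by positivity)
          exact mul_le_mul_of_nonneg_left e3 (by norm_num)
    _ = (n : ℝ) ^ ((23 : ℝ) / 24) * (2 : ℝ) ^ (((n : ℝ) - 1) / 2) * L ^ ((1 : ℝ) / n) := by
          rw [e5]; ring

/-- the power saving in plain words, from `P1` -/
theorem final_pow (P1 : ∃ n0 : ℕ, ∀ n, n0 ≤ n → ∀ k, 2 ^ (n - 1) < k →
      ∀ j, 2 * Nat.log 2 n + 12 ≤ j → 10 * j ≤ n - 1 →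
        Cost k (2 ^ j) ((Real.sqrt n)⁻¹ * ((2 ^ j : ℕ) : ℝ) * Real.log 2)) :
    ∃ K : ℕ, ∀ k : ℕ, K ≤ k → ∀ n : ℕ, n = Nat.clog 2 k →
      ∃ N₀ : ℕ, ∀ N : ℕ, N₀ ≤ N → ∃ A : Finset ℕ, A ⊆ Finset.Icc 1 N ∧
        (∀ a d : ℕ, 0 < d → ¬ ∀ j < k, a + j * d ∈ A) ∧
        (N : ℝ) * Real.exp (-((n : ℝ) ^ ((23 : ℝ) / 24) * (2 : ℝ) ^ (((n : ℝ) - 1) / 2) *
          Real.log N ^ ((1 : ℝ) / n))) ≤ A.card := by
  obtain ⟨n1, h1⟩ := asy_of_P1 P1
  refine ⟨2 ^ (n1 + 3) + 1, fun k hk n hn => ?_⟩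
  have hnk : 2 ^ (n - 1) < k := by
    rw [hn]
    apply Nat.pow_pred_clog_lt_self (by norm_num)
    have : 1 ≤ 2 ^ (n1 + 3) := Nat.one_le_two_pow
    omega
  have hnbig : n1 + 3 < n := by
    by_contra hcon
    push Not at hcon
    have h3 : k ≤ 2 ^ Nat.clog 2 k := Nat.le_pow_clog (by norm_num) k
    rw [← hn] at h3
    have h4 : 2 ^ n ≤ 2 ^ (n1 + 3) := Nat.pow_le_pow_right (by norm_num) hcon
    omega
  obtain ⟨N0, hN0⟩ := h1 n (by omega) k hnk (1 / 4) (by norm_num)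
  refine ⟨N0, fun N hN => ?_⟩
  have h := hN0 N hN
  refine nat_of_dens (h.mono (Real.exp_le_exp.2 (neg_le_neg ?_)))
  exact expo2 n (by omega) (Real.log N) (Real.log_natCast_nonneg N)

end Vale.Agent.P057.H203
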