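import Mathlib

/-!
# P057 : a planar region for three term progressions modulo one

The region has area `29/96` (up to `η`), and the weight `wt` is strictly convex along every
progression modulo one which stays inside the region.
-/

set_option linter.all false

open Finset

namespace Vale.Agent.P057.H203

/-- the residue of `2 Y` modulo one, for `Y` in `(-1/2, 1/2)` -/
noncomputable def ww (Y : ℝ) : ℝ := if 0 ≤ Y then 2 * Y else 2 * Y + 1

/-- the region -/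
def Reg (η X Y : ℝ) : Prop :=
  0 ≤ X ∧ X < 1 ∧ -(1 / 2) < Y ∧ Y < 1 / 2 ∧ -X ≤ 2 * Y ∧ 2 * Y ≤ X ∧
  (1 / 2 ≤ X → (X - 1 / 2 < 2 * Y ∨ 2 * Y < -(X - 1 / 2)) ∧ -(3 / 2 - X) < 2 * Y ∧
    2 * Y < 3 / 2 - X) ∧
  ((X < 7 / 12 ∧ -(2 * Y) < 1 - X) ∨ (7 / 12 + η < X ∧ 1 / 4 + η ≤ ww Y))

/-- the second part of the weight -/
noncomputable def f2 (X Y : ℝ) : ℝ := if X < 7 / 12 then Y ^ 2 else (1 - ww Y) ^ 2

/-- the weight -/
noncomputable def wt (η X Y : ℝ) : ℝ := 8 / η ^ 2 * X ^ 2 + f2 X Y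

theorem ww_spec {Y : ℝ} (h1 : -(1 / 2) < Y) (h2 : Y < 1 / 2) : ∃ s : ℤ,
    ((s = 0 ∧ ww Y = 2 * Y) ∨ (s = 1 ∧ ww Y = 2 * Y + 1)) ∧ ww Y = 2 * Y + s ∧ 0 ≤ ww Y ∧
      ww Y < 1 := by
  unfold ww
  by_cases h : 0 ≤ Y
  · refine ⟨0, Or.inl ⟨rfl, if_pos h⟩, ?_, ?_, ?_⟩
    · rw [if_pos h]; push_cast; ring
    · rw [if_pos h]; linarith
    · rw [if_pos h]; linarith
  · refine ⟨1, Or.inr ⟨rfl, if_neg h⟩, ?_, ?_, ?_⟩
    · rw [if_neg h]; push_cast; ring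
    · rw [if_neg h]; linarith
    · rw [if_neg h]; push Not at h; linarith

theorem f2_nonneg (X Y : ℝ) : 0 ≤ f2 X Y := by
  unfold f2
  split_ifs <;> positivity

theorem f2_le {X Y : ℝ} (h1 : -(1 / 2) < Y) (h2 : Y < 1 / 2) : f2 X Y ≤ 1 := by
  obtain ⟨s, _, _, h3, h4⟩ := ww_spec h1 h2
  unfold f2
  split_ifs
  · nlinarith
  · nlinarith

theorem int_three {x : ℝ} {k : ℤ} (h : x = k) (h1 : -2 < x) (h2 : x < 2) :
    k = -1 ∨ k = 0 ∨ k = 1 := by
  have a1 : (-2 : ℝ) < k := by rw [← h]; exact h1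
  have a2 : (k : ℝ) < 2 := by rw [← h]; exact h2
  have b1 : -2 < k := by exact_mod_cast a1
  have b2 : k < 2 := by exact_mod_cast a2
  omega

theorem int_zero {x : ℝ} {k : ℤ} (h : x = k) (h1 : -1 < x) (h2 : x < 1) : k = 0 := by
  have a1 : (-1 : ℝ) < k := by rw [← h]; exact h1
  have a2 : (k : ℝ) < 1 := by rw [← h]; exact h2
  have b1 : -1 < k := by exact_mod_cast a1
  have b2 : k < 1 := by exact_mod_cast a2
  omega

/-- the case `k = -1` is impossible -/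
theorem case_neg {η X1 X2 X3 Y1 Y2 Y3 : ℝ} (h1 : Reg η X1 Y1) (h2 : Reg η X2 Y2)
    (h3 : Reg η X3 Y3) (hX : X1 - 2 * X2 + X3 = -1) {l : ℤ} (hl : Y1 - 2 * Y2 + Y3 = l) :
    False := by
  obtain ⟨a1, a2, a3, a4, a5, a6, a7, a8⟩ := h1
  obtain ⟨b1, b2, b3, b4, b5, b6, b7, b8⟩ := h2
  obtain ⟨c1, c2, c3, c4, c5, c6, c7, c8⟩ := h3
  obtain ⟨d1, d2, d3⟩ := b7 (by linarith)
  rcases int_three hl (by linarith) (by linarith) with h | h | h
  · rw [h] at hl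
    push_cast at hl
    linarith
  · rw [h] at hl
    push_cast at hl
    rcases d1 with d1 | d1 <;> linarith
  · rw [h] at hl
    push_cast at hl
    linarith

/-- the case `k = 1` -/
theorem case_pos {M X1 X2 X3 u1 u2 u3 : ℝ} (hM : 5 ≤ M) (b1 : 0 ≤ X2) (h1 : 0 ≤ u1)
    (h3 : 0 ≤ u3) (h2 : u2 ≤ 1) (hX : X1 - 2 * X2 + X3 = 1) :
    1 / 2 ≤ (M * X1 ^ 2 + u1) - 2 * (M * X2 ^ 2 + u2) + (M * X3 ^ 2 + u3) := by
  have e : X1 ^ 2 - 2 * X2 ^ 2 + X3 ^ 2 ≥ 1 / 2 := by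
    have : X1 = 1 + 2 * X2 - X3 := by linarith
    rw [this]
    nlinarith [sq_nonneg (1 + 2 * X2 - 2 * X3)]
  nlinarith

theorem case_far {M η X1 X2 X3 u1 u2 u3 : ℝ} (hM : M * η ^ 2 = 8) (hM0 : 0 ≤ M) (hη : 0 < η)
    (h1 : 0 ≤ u1) (h3 : 0 ≤ u3) (h2 : u2 ≤ 1) (hX : X1 - 2 * X2 + X3 = 0)
    (hfar : η ≤ X1 - X3 ∨ η ≤ X3 - X1) :
    1 / 2 ≤ (M * X1 ^ 2 + u1) - 2 * (M * X2 ^ 2 + u2) + (M * X3 ^ 2 + u3) := by
  have e : M * X1 ^ 2 - 2 * (M * X2 ^ 2) + M * X3 ^ 2 = M * ((X1 - X3) ^ 2) / 2 := by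
    have : X2 = (X1 + X3) / 2 := by linarith
    rw [this]
    ring
  have h4 : η ^ 2 ≤ (X1 - X3) ^ 2 := by
    rcases hfar with h | h <;> nlinarith
  have h5 : M * η ^ 2 ≤ M * (X1 - X3) ^ 2 := mul_le_mul_of_nonneg_left h4 hM0
  nlinarith

theorem case_near {M X1 X2 X3 u1 u2 u3 t : ℝ} (hM : 1 ≤ M) (hX : X1 - 2 * X2 + X3 = 0)
    (hu : t ^ 2 / 2 ≤ u1 - 2 * u2 + u3) :
    (1 / 2) * ((X1 - X3) ^ 2 + t ^ 2) ≤
      (M * X1 ^ 2 + u1) - 2 * (M * X2 ^ 2 + u2) + (M * X3 ^ 2 + u3) := by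
  have e : M * X1 ^ 2 - 2 * (M * X2 ^ 2) + M * X3 ^ 2 = M * ((X1 - X3) ^ 2) / 2 := by
    have : X2 = (X1 + X3) / 2 := by linarith
    rw [this]
    ring
  have h5 : 1 * (X1 - X3) ^ 2 ≤ M * (X1 - X3) ^ 2 :=
    mul_le_mul_of_nonneg_right hM (sq_nonneg _)
  nlinarith

theorem zoneA {η X1 X2 X3 Y1 Y2 Y3 : ℝ} (h1 : Reg η X1 Y1) (h2 : Reg η X2 Y2)
    (h3 : Reg η X3 Y3) (hη : 0 < η) (z1 : X1 < 7 / 12) (z3 : X3 < 7 / 12)
    (hX : X1 - 2 * X2 + X3 = 0) {l : ℤ} (hl : Y1 - 2 * Y2 + Y3 = l) :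
    (Y1 - Y3) ^ 2 / 2 ≤ f2 X1 Y1 - 2 * f2 X2 Y2 + f2 X3 Y3 := by
  have z2 : X2 < 7 / 12 := by linarith
  obtain ⟨a1, a2, a3, a4, a5, a6, a7, a8⟩ := h1
  obtain ⟨b1, b2, b3, b4, b5, b6, b7, b8⟩ := h2
  obtain ⟨c1, c2, c3, c4, c5, c6, c7, c8⟩ := h3
  have a9 : -(2 * Y1) < 1 - X1 := by
    rcases a8 with a8 | a8
    · exact a8.2
    · linarith [a8.1]
  have b9 : -(2 * Y2) < 1 - X2 := by
    rcases b8 with b8 | b8
    · exact b8.2
    · linarith [b8.1]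
  have c9 : -(2 * Y3) < 1 - X3 := by
    rcases c8 with c8 | c8
    · exact c8.2
    · linarith [c8.1]
  have hl0 := int_zero hl (by linarith) (by linarith)
  rw [hl0] at hl
  push_cast at hl
  unfold f2
  rw [if_pos z1, if_pos z2, if_pos z3]
  have : Y2 = (Y1 + Y3) / 2 := by linarith
  rw [this]
  apply le_of_eq
  ring

theorem zoneB {η X1 X2 X3 Y1 Y2 Y3 : ℝ} (h1 : Reg η X1 Y1) (h2 : Reg η X2 Y2)
    (h3 : Reg η X3 Y3) (hη : 0 < η) (z1 : 7 / 12 + η < X1) (z3 : 7 / 12 + η < X3)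
    (hX : X1 - 2 * X2 + X3 = 0) {l : ℤ} (hl : Y1 - 2 * Y2 + Y3 = l) :
    (Y1 - Y3) ^ 2 / 2 ≤ f2 X1 Y1 - 2 * f2 X2 Y2 + f2 X3 Y3 ∨
    1 / 2 ≤ f2 X1 Y1 - 2 * f2 X2 Y2 + f2 X3 Y3 ∨ (η ≤ X1 - X3 ∨ η ≤ X3 - X1) := by
  have z2 : 7 / 12 + η < X2 := by linarith
  obtain ⟨a1, a2, a3, a4, a5, a6, a7, a8⟩ := h1
  obtain ⟨b1, b2, b3, b4, b5, b6, b7, b8⟩ := h2
  obtain ⟨c1, c2, c3, c4, c5, c6, c7, c8⟩ := h3
  have b9 : 1 / 4 + η ≤ ww Y2 := by
    rcases b8 with b8 | b8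
    · linarith [b8.1]
    · exact b8.2
  obtain ⟨s1, r1, e1, p1, q1⟩ := ww_spec a3 a4
  obtain ⟨s2, r2, e2, p2, q2⟩ := ww_spec b3 b4
  obtain ⟨s3, r3, e3, p3, q3⟩ := ww_spec c3 c4
  have g1 : f2 X1 Y1 = (1 - ww Y1) ^ 2 := by unfold f2; rw [if_neg (by linarith)]
  have g2 : f2 X2 Y2 = (1 - ww Y2) ^ 2 := by unfold f2; rw [if_neg (by linarith)]
  have g3 : f2 X3 Y3 = (1 - ww Y3) ^ 2 := by unfold f2; rw [if_neg (by linarith)]
  rw [g1, g2, g3]
  have a10 := a7 (by linarith)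
  have c10 := c7 (by linarith)
  have hn : 2 * ww Y2 - ww Y1 - ww Y3 = ((2 * s2 - s1 - s3 - 2 * l : ℤ) : ℝ) := by
    push_cast
    rw [e1, e2, e3]
    linarith
  rcases int_three hn (by linarith) (by linarith) with h | h | h
  · -- w2 = avg - 1/2
    right; right
    rw [h] at hn
    push_cast at hn
    rcases r1 with ⟨r1, r1'⟩ | ⟨r1, r1'⟩ <;> rcases r3 with ⟨r3, r3'⟩ | ⟨r3, r3'⟩
    · exfalso; omega
    · left
      have k3 : 2 * Y3 < -(X3 - 1 / 2) := by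
        rcases c10.1 with k | k
        · linarith
        · exact k
      linarith
    · right
      have k1 : 2 * Y1 < -(X1 - 1 / 2) := by
        rcases a10.1 with k | k
        · linarith
        · exact k
      linarith
    · exfalso; omega
  · left
    rw [h] at hn
    push_cast at hn
    have e4 : ww Y2 = (ww Y1 + ww Y3) / 2 := by linarith
    have e5 : s1 = s3 := by
      rcases r1 with ⟨r1, _⟩ | ⟨r1, _⟩ <;> rcases r3 with ⟨r3, _⟩ | ⟨r3, _⟩ <;> omega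
    have e6 : ww Y1 - ww Y3 = 2 * (Y1 - Y3) := by
      rw [e1, e3, e5]; ring
    have e7 : (1 - ww Y1) ^ 2 - 2 * (1 - ww Y2) ^ 2 + (1 - ww Y3) ^ 2 =
        (ww Y1 - ww Y3) ^ 2 / 2 := by
      rw [e4]; ring
    rw [e7, e6]
    have e8 : (2 * (Y1 - Y3)) ^ 2 / 2 = (Y1 - Y3) ^ 2 / 2 + 3 / 2 * (Y1 - Y3) ^ 2 := by ring
    rw [e8]
    have e9 : 0 ≤ 3 / 2 * (Y1 - Y3) ^ 2 := by positivity
    exact le_add_of_nonneg_right e9
  · right; left
    rw [h] at hn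
    push_cast at hn
    have e4 : ww Y2 = (ww Y1 + ww Y3) / 2 + 1 / 2 := by linarith
    have e7 : (1 - ww Y1) ^ 2 - 2 * (1 - ww Y2) ^ 2 + (1 - ww Y3) ^ 2 =
        (ww Y1 - ww Y3) ^ 2 / 2 + (3 / 2 - (ww Y1 + ww Y3)) := by
      rw [e4]; ring
    rw [e7]
    have e9 : 0 ≤ (ww Y1 - ww Y3) ^ 2 / 2 := by positivity
    have e10 : 1 / 2 ≤ 3 / 2 - (ww Y1 + ww Y3) := by linarith only [e4, q2]
    linarith only [e9, e10]

/-- the main property of the region -/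
theorem reg_cv {η X1 X2 X3 Y1 Y2 Y3 : ℝ} (hη : 0 < η) (hη1 : η ≤ 1 / 100) (h1 : Reg η X1 Y1)
    (h2 : Reg η X2 Y2) (h3 : Reg η X3 Y3) {k l : ℤ} (hk : X1 - 2 * X2 + X3 = k)
    (hl : Y1 - 2 * Y2 + Y3 = l) :
    1 / 2 ≤ wt η X1 Y1 - 2 * wt η X2 Y2 + wt η X3 Y3 ∨
    (1 / 2) * ((X1 - X3) ^ 2 + (Y1 - Y3) ^ 2) ≤ wt η X1 Y1 - 2 * wt η X2 Y2 + wt η X3 Y3 := by
  have hM : 8 / η ^ 2 * η ^ 2 = 8 := by field_simp
  have hM5 : 5 ≤ 8 / η ^ 2 := by
    rw [le_div_iff₀ (by positivity)]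
    nlinarith
  have u1 := f2_nonneg X1 Y1
  have u3 := f2_nonneg X3 Y3
  have u2 := f2_le (X := X2) h2.2.2.1 h2.2.2.2.1
  unfold wt
  rcases int_three hk (by linarith [h1.1, h2.2.1, h3.1]) (by linarith [h1.2.1, h2.1, h3.2.1])
    with h | h | h
  · rw [h] at hk
    push_cast at hk
    exact (case_neg h1 h2 h3 hk hl).elim
  · rw [h] at hk
    push_cast at hk
    have w1 : X1 < 7 / 12 ∨ 7 / 12 + η < X1 := by
      rcases h1.2.2.2.2.2.2.2 with g | g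
      · exact Or.inl g.1
      · exact Or.inr g.1
    have w3 : X3 < 7 / 12 ∨ 7 / 12 + η < X3 := by
      rcases h3.2.2.2.2.2.2.2 with g | g
      · exact Or.inl g.1
      · exact Or.inr g.1
    rcases w1 with w1 | w1 <;> rcases w3 with w3 | w3
    · right
      exact case_near (by linarith) hk (zoneA h1 h2 h3 hη w1 w3 hk hl)
    · left
      exact case_far hM (by linarith) hη u1 u3 u2 hk (Or.inr (by linarith))
    · left
      exact case_far hM (by linarith) hη u1 u3 u2 hk (Or.inl (by linarith))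
    · rcases zoneB h1 h2 h3 hη w1 w3 hk hl with g | g | g
      · right
        exact case_near (by linarith) hk g
      · left
        have e : 8 / η ^ 2 * X1 ^ 2 - 2 * (8 / η ^ 2 * X2 ^ 2) + 8 / η ^ 2 * X3 ^ 2 =
            8 / η ^ 2 * ((X1 - X3) ^ 2) / 2 := by
          have : X2 = (X1 + X3) / 2 := by linarith
          rw [this]
          ring
        have e2 : 0 ≤ 8 / η ^ 2 * ((X1 - X3) ^ 2) / 2 := by positivity
        linarith
      · left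
        exact case_far hM (by linarith) hη u1 u3 u2 hk g
  · rw [h] at hk
    push_cast at hk
    left
    exact case_pos hM5 h2.1 u1 u3 u2 hk

/-! ### the sections of the region -/

/-- lower bound for the length of the section -/
noncomputable def hh (η X : ℝ) : ℝ :=
  if X < 1 / 2 then X else if X < 7 / 12 then 1 - X else if X ≤ 7 / 12 + η then 0 else
    if X < 3 / 4 then X / 2 + 1 / 8 - η else 2 * (1 - X) - η

theorem ww_pos {Y : ℝ} (h : 0 ≤ Y) : ww Y = 2 * Y := if_pos h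

theorem ww_neg {Y : ℝ} (h : Y < 0) : ww Y = 2 * Y + 1 := if_neg (by linarith)

theorem reg_interval {η X : ℝ} (hη : 0 < η) (hη1 : η ≤ 1 / 100) (hX0 : 0 ≤ X) (hX1 : X < 1) :
    ∃ a b c d : ℝ, 0 ≤ a ∧ d ≤ 0 ∧ -1 ≤ c ∧ b ≤ 1 ∧ hh η X ≤ (b - a) + (d - c) ∧
      (∀ Y, a < Y → Y < b → Reg η X Y) ∧ (∀ Y, c < Y → Y < d → Reg η X Y) := by
  by_cases c1 : X < 1 / 2
  · refine ⟨0, X / 2, -(X / 2), 0, le_rfl, le_rfl, by linarith, by linarith, ?_, ?_, ?_⟩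
    · unfold hh; rw [if_pos c1]; linarith
    · intro Y h1 h2
      exact ⟨hX0, hX1, by linarith, by linarith, by linarith, by linarith,
        fun h => absurd h (by linarith), Or.inl ⟨by linarith, by linarith⟩⟩
    · intro Y h1 h2
      exact ⟨hX0, hX1, by linarith, by linarith, by linarith, by linarith,
        fun h => absurd h (by linarith), Or.inl ⟨by linarith, by linarith⟩⟩
  by_cases c2 : X < 7 / 12
  · refine ⟨X / 2 - 1 / 4, X / 2, -((1 - X) / 2), -(X / 2 - 1 / 4), by linarith, by linarith,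
      by linarith, by linarith, ?_, ?_, ?_⟩
    · unfold hh; rw [if_neg c1, if_pos c2]; linarith
    · intro Y h1 h2
      exact ⟨hX0, hX1, by linarith, by linarith, by linarith, by linarith,
        fun h => ⟨Or.inl (by linarith), by linarith, by linarith⟩,
        Or.inl ⟨by linarith, by linarith⟩⟩
    · intro Y h1 h2
      exact ⟨hX0, hX1, by linarith, by linarith, by linarith, by linarith,
        fun h => ⟨Or.inr (by linarith), by linarith, by linarith⟩,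
        Or.inl ⟨by linarith, by linarith⟩⟩
  by_cases c3 : X ≤ 7 / 12 + η
  · refine ⟨0, 0, 0, 0, le_rfl, le_rfl, by linarith, by linarith, ?_, ?_, ?_⟩
    · unfold hh; rw [if_neg c1, if_neg c2, if_pos c3]; linarith
    · intro Y h1 h2; linarith
    · intro Y h1 h2; linarith
  by_cases c4 : X < 3 / 4
  · refine ⟨1 / 8 + η / 2, X / 2, -(X / 2) + η / 2, 1 / 4 - X / 2, by linarith, by linarith,
      by linarith, by linarith, ?_, ?_, ?_⟩
    · unfold hh; rw [if_neg c1, if_neg c2, if_neg c3, if_pos c4]; linarith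
    · intro Y h1 h2
      have hw := ww_pos (Y := Y) (by linarith)
      exact ⟨hX0, hX1, by linarith, by linarith, by linarith, by linarith,
        fun h => ⟨Or.inl (by linarith), by linarith, by linarith⟩,
        Or.inr ⟨by linarith, by rw [hw]; linarith⟩⟩
    · intro Y h1 h2
      have hw := ww_neg (Y := Y) (by linarith)
      exact ⟨hX0, hX1, by linarith, by linarith, by linarith, by linarith,
        fun h => ⟨Or.inr (by linarith), by linarith, by linarith⟩,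
        Or.inr ⟨by linarith, by rw [hw]; linarith⟩⟩
  · refine ⟨(X - 1 / 2 + η) / 2, (3 / 2 - X) / 2, (X - 3 / 2 + η) / 2, (1 / 2 - X) / 2,
      by linarith, by linarith, by linarith, by linarith, ?_, ?_, ?_⟩
    · unfold hh; rw [if_neg c1, if_neg c2, if_neg c3, if_neg c4]; linarith
    · intro Y h1 h2
      have hw := ww_pos (Y := Y) (by linarith)
      exact ⟨hX0, hX1, by linarith, by linarith, by linarith, by linarith,
        fun h => ⟨Or.inl (by linarith), by linarith, by linarith⟩,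
        Or.inr ⟨by linarith, by rw [hw]; linarith⟩⟩
    · intro Y h1 h2
      have hw := ww_neg (Y := Y) (by linarith)
      exact ⟨hX0, hX1, by linarith, by linarith, by linarith, by linarith,
        fun h => ⟨Or.inr (by linarith), by linarith, by linarith⟩,
        Or.inr ⟨by linarith, by rw [hw]; linarith⟩⟩

end Vale.Agent.P057.H203
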