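import Vale.Agent.P057.H203.Tow

/-!
# P057 : the limit form in plain words
-/

set_option linter.all false
set_option autoImplicit false

open Finset Polynomial Vale.Agent.P057.Lower

namespace Vale.Agent.P057.H203

theorem nat_of_dens {k N : ℕ} {x : ℝ} (h : Dens k 1 N x) :
    ∃ A : Finset ℕ, A ⊆ Finset.Icc 1 N ∧ (∀ a d : ℕ, 0 < d → ¬ ∀ j < k, a + j * d ∈ A) ∧
      (N : ℝ) * x ≤ A.card := by
  obtain ⟨A, hA, hAf, hAc⟩ := h
  refine ⟨A.image (fun a => a.toNat + 1), ?_, ?_, ?_⟩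
  · intro x hx
    obtain ⟨a, ha, rfl⟩ := Finset.mem_image.1 hx
    have := Finset.mem_Ico.1 (hA ha)
    rw [Finset.mem_Icc]
    omega
  · intro a d hd hcon
    have hP : (C ((d : ℚ)) * X + C ((a : ℚ) - 1)).natDegree = 1 :=
      natDegree_linear (by exact_mod_cast hd.ne')
    obtain ⟨j, hj, hne⟩ := hAf _ hP
    obtain ⟨b, hb, hb'⟩ := Finset.mem_image.1 (hcon j hj)
    apply hne b hb
    have h1 := Finset.mem_Ico.1 (hA hb)
    have h2 : b = (a : ℤ) + j * d - 1 := by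
      have h3 : ((b.toNat + 1 : ℕ) : ℤ) = ((a + j * d : ℕ) : ℤ) := by rw [hb']
      push_cast at h3
      rw [Int.toNat_of_nonneg h1.1] at h3
      linarith only [h3]
    rw [eval_add, eval_mul, eval_C, eval_C, eval_X, h2]
    push_cast
    ring
  · rw [Finset.card_image_of_injOn]
    · exact hAc
    · intro x hx y hy hxy
      have h1 := Finset.mem_Ico.1 (hA (Finset.mem_coe.1 hx))
      have h2 := Finset.mem_Ico.1 (hA (Finset.mem_coe.1 hy))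
      have h3 : x.toNat + 1 = y.toNat + 1 := hxy
      omega

theorem expo (n : ℕ) (hn : 1 ≤ n) (c L : ℝ) (hc : 0 ≤ c) (hL : 0 ≤ L) :
    (1 + 1) * (n : ℝ) * ((c / 2) ^ n * 2 ^ (n * (n - 1) / 2) * Real.log 2 ^ (n - 1) * L) ^
      ((1 : ℝ) / n) =
    c * ((n : ℝ) * (2 : ℝ) ^ (((n : ℝ) - 1) / 2) * Real.log 2 ^ (((n : ℝ) - 1) / n)) *
      L ^ ((1 : ℝ) / n) := by
  have hn0 : (n : ℝ) ≠ 0 := by
    have : 0 < n := hn
    exact_mod_cast this.ne'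
  have hlog : 0 ≤ Real.log 2 := Real.log_nonneg (by norm_num)
  have hc2 : 0 ≤ c / 2 := by linarith
  have hcast : ((n * (n - 1) / 2 : ℕ) : ℝ) = (n : ℝ) * ((n : ℝ) - 1) / 2 := by
    have h1 : 2 * (n * (n - 1) / 2) = n * (n - 1) :=
      Nat.mul_div_cancel' (Nat.even_mul_pred_self n).two_dvd
    have h2 : (2 : ℝ) * ((n * (n - 1) / 2 : ℕ) : ℝ) = (n : ℝ) * ((n - 1 : ℕ) : ℝ) := by
      exact_mod_cast h1
    rw [Nat.cast_sub hn, Nat.cast_one] at h2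
    linarith
  have hcast2 : ((n - 1 : ℕ) : ℝ) = (n : ℝ) - 1 := by
    rw [Nat.cast_sub hn, Nat.cast_one]
  rw [Real.mul_rpow (by positivity) hL, Real.mul_rpow (by positivity) (by positivity),
    Real.mul_rpow (by positivity) (by positivity)]
  have e1 : ((c / 2) ^ n) ^ ((1 : ℝ) / n) = c / 2 := by
    rw [← Real.rpow_natCast (c / 2) n, ← Real.rpow_mul hc2, mul_one_div_cancel hn0, Real.rpow_one]
  have e2 : ((2 : ℝ) ^ (n * (n - 1) / 2)) ^ ((1 : ℝ) / n) = (2 : ℝ) ^ (((n : ℝ) - 1) / 2) := by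
    rw [← Real.rpow_natCast 2 (n * (n - 1) / 2), ← Real.rpow_mul (by norm_num), hcast]
    congr 1
    field_simp
  have e3 : (Real.log 2 ^ (n - 1)) ^ ((1 : ℝ) / n) = Real.log 2 ^ (((n : ℝ) - 1) / n) := by
    rw [← Real.rpow_natCast (Real.log 2) (n - 1), ← Real.rpow_mul hlog, hcast2]
    congr 1
    field_simp
  rw [e1, e2, e3]
  ring

/-- the limit form in plain words -/
theorem final_of (H : ∀ θ : ℝ, 0 < θ → ∃ D0 K0 : ℕ, ∀ k, K0 ≤ k → ∀ D, D0 ≤ D → D ^ 10 ≤ k →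
      Cost k D (θ * D * Real.log 2)) :
    ∀ c : ℝ, 0 < c → ∃ K : ℕ, ∀ k : ℕ, K ≤ k → ∀ n : ℕ, n = Nat.clog 2 k →
      ∃ N₀ : ℕ, ∀ N : ℕ, N₀ ≤ N → ∃ A : Finset ℕ, A ⊆ Finset.Icc 1 N ∧
        (∀ a d : ℕ, 0 < d → ¬ ∀ j < k, a + j * d ∈ A) ∧
        (N : ℝ) * Real.exp (-(c * ((n : ℝ) * (2 : ℝ) ^ (((n : ℝ) - 1) / 2) *
          Real.log 2 ^ (((n : ℝ) - 1) / n)) * Real.log N ^ ((1 : ℝ) / n))) ≤ A.card := by
  intro c hc
  obtain ⟨K, hK⟩ := small_of H (c / 2) (by positivity)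
  refine ⟨K, fun k hk n hn => ?_⟩
  obtain ⟨hn2, -, hA⟩ := hK k hk n hn
  obtain ⟨N0, hN0⟩ := hA 1 one_pos
  refine ⟨N0, fun N hN => ?_⟩
  have h := hN0 N hN
  rw [expo n (by omega) c (Real.log N) hc.le (Real.log_natCast_nonneg N)] at h
  exact nat_of_dens h

end Vale.Agent.P057.H203
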